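import Vale.Agent.P167.H945.S.SMac
import Vale.Agent.P167.H398.Q.ODefs

/-!
# P167, general `q`, block Q-START: moments for a frame

`h2s`: the moments `H2S`.
-/

namespace Vale.Agent.P167.H945.S

open Finset MeasureTheory Filter
open Vale.Agent.P167.BR hiding dv
open Vale.Agent.P167.FK
open Vale.Agent.P167.E6 (IsPolygon Encloses)
open Vale.Agent.P167.H519 (IsLim)
open Vale.Agent.P167.H825 (dv epos enl Marks FlowIn)
open Vale.Agent.P167.H825.Q (Row Bc)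
open Vale.Agent.P167.H680.T (rowC uI mem_uI frows)
open Vale.Agent.P167.H506.Q (EF fz LF EF_tr EF_le EF_lin EF_nonneg EF_mul_left)
open Vale.Agent.P167.H562.QM
open Vale.Agent.P167.H562.MAJ (Sm)
open Vale.Agent.P167.H662 (hsite)
open Vale.Agent.P167.H199 (Gap exists_Gap)
open Vale.Agent.P167.H945.Q
open Vale.Agent.P167.H398.Q (H2S Ttip Tjun hB)
open Vale.Agent.P167.Enl (BGap exists_BGap R0 mem_hB)

section prod

variable {θ : ℝ} {ι : Type} [Fintype ι] (r : ι → Row) (ρ₁ ρ₂ : ℤ) (ω : Cfg)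

/-- The radii. -/
def rds (ρ₁ ρ₂ : ℤ) (q : ι × Fin 3) : ℤ := if q.2 = 2 then ρ₂ else ρ₁

theorem PTW_univ : PTW θ r univ (rds ρ₁ ρ₂) ω = Ttip θ r ρ₁ ω * Tjun θ r ρ₂ ω := by
  have d0 : ¬ (0 : Fin 3) = 2 := by decide
  have d1 : ¬ (1 : Fin 3) = 2 := by decide
  unfold PTW Ttip Tjun rds
  rw [Fintype.prod_prod_type, ← prod_mul_distrib]
  refine prod_congr rfl fun x _ => ?_
  rw [Fin.prod_univ_three]
  show Tc θ (uI r) (r x) 0 (if (0 : Fin 3) = 2 then ρ₂ else ρ₁) ω *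
    Tc θ (uI r) (r x) 1 (if (1 : Fin 3) = 2 then ρ₂ else ρ₁) ω *
    Tc θ (uI r) (r x) 2 (if (2 : Fin 3) = 2 then ρ₂ else ρ₁) ω = _
  rw [if_neg d0, if_neg d1, if_pos rfl]

theorem PTW_tips : PTW θ r (univ.filter fun q : ι × Fin 3 => q.2 ≠ 2) (rds ρ₁ ρ₂) ω =
    Ttip θ r ρ₁ ω := by
  have d0 : ¬ (0 : Fin 3) = 2 := by decide
  have d1 : ¬ (1 : Fin 3) = 2 := by decide
  unfold PTW Ttip rds
  rw [prod_filter, Fintype.prod_prod_type]
  refine prod_congr rfl fun x _ => ?_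
  rw [Fin.prod_univ_three]
  show (if (0 : Fin 3) ≠ 2 then Tc θ (uI r) (r x) 0 (if (0 : Fin 3) = 2 then ρ₂ else ρ₁) ω else 1) *
    (if (1 : Fin 3) ≠ 2 then Tc θ (uI r) (r x) 1 (if (1 : Fin 3) = 2 then ρ₂ else ρ₁) ω else 1) *
    (if (2 : Fin 3) ≠ 2 then Tc θ (uI r) (r x) 2 (if (2 : Fin 3) = 2 then ρ₂ else ρ₁) ω else 1) = _
  rw [if_pos d0, if_pos d1, if_neg (not_not.2 rfl), if_neg d0, if_neg d1, mul_one]

theorem PTW_juns : PTW θ r (univ.filter fun q : ι × Fin 3 => q.2 = 2) (rds ρ₁ ρ₂) ω =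
    Tjun θ r ρ₂ ω := by
  have d0 : ¬ (0 : Fin 3) = 2 := by decide
  have d1 : ¬ (1 : Fin 3) = 2 := by decide
  unfold PTW Tjun rds
  rw [prod_filter, Fintype.prod_prod_type]
  refine prod_congr rfl fun x _ => ?_
  rw [Fin.prod_univ_three]
  show (if (0 : Fin 3) = 2 then Tc θ (uI r) (r x) 0 (if (0 : Fin 3) = 2 then ρ₂ else ρ₁) ω else 1) *
    (if (1 : Fin 3) = 2 then Tc θ (uI r) (r x) 1 (if (1 : Fin 3) = 2 then ρ₂ else ρ₁) ω else 1) *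
    (if (2 : Fin 3) = 2 then Tc θ (uI r) (r x) 2 (if (2 : Fin 3) = 2 then ρ₂ else ρ₁) ω else 1) = _
  rw [if_neg d0, if_neg d1, if_pos rfl, if_pos rfl, one_mul, one_mul]

end prod

/-- **Moments for a frame.** -/
theorem h2s {θ β : ℝ} {P : Measure Cfg} (h0 : 0 < θ) (h1 : θ ≤ Real.pi / 3)
    (hβ : β = (θ - Real.pi) / 2 ∨ β = (Real.pi - 3 * θ) / 2) (hR : RSW (2 * Real.cos θ))
    (hb1 : P1b θ) (hP : IsLim (2 * Real.cos θ) P) (hgd : ∀ᵐ ω ∂P, Good ω) : H2S θ β P := by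
  classical
  intro l _ p S₀ hp hD Q hQ bc hb κ B hκ
  have hPp : IsProbabilityMeasure P := hP.1
  obtain ⟨g1, hg1, G1⟩ := exists_Gap hQ l
  obtain ⟨g2, hg2, G2⟩ := exists_BGap hb
  obtain ⟨g, hgd'⟩ : ∃ g, g = min g1 g2 := ⟨_, rfl⟩
  have hg0 : 0 < g := by rw [hgd']; exact lt_min hg1 hg2
  have hg : Gap Q l g := G1.mono (by rw [hgd']; exact min_le_left _ _)
  have hbg : BGap l Q g bc := G2.mono (by rw [hgd']; exact min_le_right _ _)
  have hR0 := R0_nonneg p S₀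
  refine ⟨min (κ / 100) (g / 200), by positivity, fun κ' hκ' hκ1 A hA1 => ?_⟩
  have hκκ : 100 * κ' ≤ κ := by
    have := hκ1.le.trans (min_le_left _ _)
    linarith
  have hκg : 200 * κ' ≤ g := by
    have := hκ1.le.trans (min_le_right _ _)
    linarith
  have hA2 : 1 ≤ A ^ 2 := one_le_pow₀ hA1
  obtain ⟨m₀, hm₀⟩ : ∃ m₀ : ℕ, m₀ = 5 * Fintype.card (Fin l × Fin (Q.m + 1)) + 2 := ⟨_, rfl⟩
  obtain ⟨s, hs⟩ : ∃ s : ℝ, s = m₀ * Real.log (A ^ 2) := ⟨_, rfl⟩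
  obtain ⟨C1, hC1, k1⟩ := EF_hole h0 h1 hR hP hgd hp hD hQ hb hg hbg hβ s
  obtain ⟨C2, hC2, k2⟩ := EF_tip h0 h1 hb1 hP hgd hp hD hQ hb hg hbg hβ s
  obtain ⟨C3, hC3, k3⟩ := EF_jun h0 h1 hb1 hP hgd hp hD hQ hb hg hbg hβ hκ' hκg s
  obtain ⟨C4, δ4, hC4, hδ4, k4⟩ := EF_mac (β := β) (bc := bc) h0 h1 hR hP hgd hp hD hQ hg hκ'
    hκg s
  obtain ⟨C5, hC5, k5⟩ := EF_flo (B := B) h0 h1 hR hP hgd hp hD hQ hg hbg hβ hκ' hκκ
    (s := m₀ * 2) (by positivity)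
  obtain ⟨Cm, hCm⟩ : ∃ Cm, Cm = C1 + C2 + C3 + C4 + 1 := ⟨_, rfl⟩
  have hCm0 : 0 ≤ Cm := by rw [hCm]; positivity
  have hm0 : (0 : ℝ) < m₀ := by
    have : 0 < m₀ := by omega
    exact_mod_cast this
  refine ⟨A ^ 2 * (m₀ * (Cm + (C5 + 1))), min (min (g / 20) κ) δ4, by positivity,
    lt_min (lt_min (by positivity) hκ) hδ4, fun δ hδ hδ0 => ?_⟩
  have hδg : 20 * δ ≤ g := by
    have := (hδ0.le.trans (min_le_left _ _)).trans (min_le_left _ _)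
    linarith
  have hδκ : δ ≤ κ := (hδ0.le.trans (min_le_left _ _)).trans (min_le_right _ _)
  have hδ4' : δ < δ4 := hδ0.trans_le (min_le_right _ _)
  have hlim' : Tendsto (fun n : ℕ => κ' * (n : ℝ)) atTop atTop :=
    tendsto_natCast_atTop_atTop.const_mul_atTop hκ'
  filter_upwards [k1 δ hδ hδg, k2 δ hδ hδg, k3 δ hδ hδg, k4 δ hδ hδg hδ4', k5 δ hδ hδg hδκ]
    with n e1 e2 e3 e4 e5
  intro σ hσ
  have hσ' : Frz (frows θ β p Q n ⌊δ * (n : ℝ)⌋₊ bc) σ := hσ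
  have hn0 : (0 : ℝ) ≤ n := Nat.cast_nonneg n
  obtain ⟨r, hr⟩ : ∃ r : Fin l × Fin (Q.m + 1) → Row,
    r = frows θ β p Q n ⌊δ * (n : ℝ)⌋₊ bc := ⟨_, rfl⟩
  obtain ⟨R, hRd⟩ : ∃ R : (Fin l × Fin (Q.m + 1)) × Fin 3 → ℤ,
    R = rds ⌊δ * n / 16⌋ ⌊4 * κ' * n⌋ := ⟨_, rfl⟩
  have hR1 : ∀ q : (Fin l × Fin (Q.m + 1)) × Fin 3, q.2 ≠ 2 → R q = ⌊δ * n / 16⌋ := fun q hq => by
    rw [hRd]; exact if_neg hq
  have hR2 : ∀ q : (Fin l × Fin (Q.m + 1)) × Fin 3, q.2 = 2 → R q = ⌊4 * κ' * n⌋ := fun q hq => by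
    rw [hRd]; exact if_pos hq
  have hR2' : ∀ q : (Fin l × Fin (Q.m + 1)) × Fin 3, q.2 = 2 → (R q : ℝ) ≤ g * n / 4 :=
    fun q hq => by
      rw [hR2 q hq]
      have h2 : ((⌊4 * κ' * n⌋ : ℤ) : ℝ) ≤ 4 * κ' * n := Int.floor_le _
      have h3 : 200 * κ' * n ≤ g * n := mul_le_mul_of_nonneg_right hκg hn0
      linarith [mul_nonneg hg0.le hn0]
  simp only [← hr] at e1 e2 e3 e4 e5 hσ' ⊢
  have hTle : ∀ {c : ℝ}, c ≤ Cm → ∀ {a : ℝ} (W : Finset ((Fin l × Fin (Q.m + 1)) × Fin 3)),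
      a ≤ c * EF P (uI r) σ (PTW θ r W R) → a ≤ Cm * EF P (uI r) σ (PTW θ r W R) :=
    fun {c} hc {a} W h => h.trans (mul_le_mul_of_nonneg_right hc
      (EF_nonneg fun ω => PTW_nonneg h0 h1 _ _ _ _))
  have hzero : ∀ W : Finset ((Fin l × Fin (Q.m + 1)) × Fin 3),
      EF P (uI r) σ (fun ω => PTW θ r W R ω * Real.exp (s * (((fun _ => 0 : Cfg → ℕ) ω : ℕ) : ℝ)))
        ≤ Cm * EF P (uI r) σ (PTW θ r W R) := fun W => by
    refine hTle (c := 1) (by rw [hCm]; linarith) W ?_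
    simp only [Nat.cast_zero, mul_zero, Real.exp_zero, mul_one, one_mul]
    exact le_rfl
  -- the zones at the holes
  obtain ⟨zone1, hz1⟩ : ∃ zone1 : (Fin l × Fin (Q.m + 1)) ⊕ ((Fin l × Fin (Q.m + 1)) × Fin 3) →
      Finset (ℤ × ℤ), zone1 = Sum.elim
        (fun x => holeZ θ β p Q bc n ⌊δ * (n : ℝ)⌋₊ ⌊δ * n / 16⌋ ⌊4 * δ * n⌋ x)
        (fun q => if q.2 ≠ 2 then Bq (ctr (r q.1) q.2) (2 * ⌊δ * n / 16⌋) else ∅) := ⟨_, rfl⟩
  have Z1 : ∀ j, ∃ N : Cfg → ℕ,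
      (∃ U : Finset (ℤ × ℤ), ∀ ω ω' : Cfg, (∀ v ∈ U, ω v = ω' v) → N ω = N ω') ∧
      (∀ ω, Good ω → MajA (zone1 j) (δ * n / 64) ω (N ω)) ∧
      ∀ W : Finset ((Fin l × Fin (Q.m + 1)) × Fin 3), (∀ q, q.2 ≠ 2 → q ∈ W) →
        EF P (uI r) σ (fun ω => PTW θ r W R ω * Real.exp (s * (N ω : ℝ))) ≤
          Cm * EF P (uI r) σ (PTW θ r W R) := by
    rintro (x | ⟨x, k⟩)
    · obtain ⟨N, a1, a2, a3⟩ := e1 σ hσ' x
      refine ⟨N, a1, fun ω _ => ?_, fun W _ => hTle (by rw [hCm]; linarith) W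
        (a3 W R hR1 hR2')⟩
      rw [hz1, Sum.elim_inl]
      exact a2 ω
    · by_cases hk : k = 2
      · refine ⟨fun _ => 0, ⟨∅, fun _ _ _ => rfl⟩, fun ω _ => ?_, fun W _ => hzero W⟩
        rw [hz1, Sum.elim_inr, if_neg (not_not.2 hk)]
        exact majA_empty _
      · obtain ⟨N, a1, a2, a3⟩ := e2 σ hσ' x k hk
        refine ⟨N, a1, fun ω hω => ?_, fun W hW => hTle (by rw [hCm]; linarith) W
          (a3 W R (hW (x, k) hk) hR1 hR2')⟩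
        rw [hz1, Sum.elim_inr, if_pos hk]
        exact a2 ω hω
  choose N1 u1 m1 b1 using Z1
  -- the macroscopic zones
  obtain ⟨zone2, hz2⟩ : ∃ zone2 : Option (Fin l × Fin (Q.m + 1)) → Finset (ℤ × ℤ),
      zone2 = fun j => Option.elim j
        (macZ θ β p Q bc n ⌊δ * (n : ℝ)⌋₊ ⌊4 * κ' * n⌋ (⌈(R0 p S₀ + 4) * n⌉ + 1))
        (fun x => if ¬ Plain (r x) then Bq (ctr (r x) 2) (2 * ⌊4 * κ' * n⌋) else ∅) := ⟨_, rfl⟩
  have Z2 : ∀ j, ∃ N : Cfg → ℕ,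
      (∃ U : Finset (ℤ × ℤ), ∀ ω ω' : Cfg, (∀ v ∈ U, ω v = ω' v) → N ω = N ω') ∧
      (∀ ω, Good ω → MajA (zone2 j) (κ' * n) ω (N ω)) ∧
      ∀ W : Finset ((Fin l × Fin (Q.m + 1)) × Fin 3), (∀ q, q.2 = 2 → q ∈ W) →
        EF P (uI r) σ (fun ω => PTW θ r W R ω * Real.exp (s * (N ω : ℝ))) ≤
          Cm * EF P (uI r) σ (PTW θ r W R) := by
    rintro (_ | x)
    · obtain ⟨N, a1, a2, a3⟩ := e4 σ hσ'
      refine ⟨N, a1, fun ω _ => ?_, fun W _ => hTle (by rw [hCm]; linarith) W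
        (a3 W R hR1 hR2)⟩
      rw [hz2]
      exact a2 ω
    · by_cases hx : Plain (r x)
      · refine ⟨fun _ => 0, ⟨∅, fun _ _ _ => rfl⟩, fun ω _ => ?_, fun W _ => hzero W⟩
        rw [hz2]
        show MajA (if ¬ Plain (r x) then _ else ∅) _ _ _
        rw [if_neg (not_not.2 hx)]
        exact majA_empty _
      · obtain ⟨N, a1, a2, a3⟩ := e3 σ hσ' x hx
        refine ⟨N, a1, fun ω hω => ?_, fun W hW => hTle (by rw [hCm]; linarith) W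
          (a3 W R (hW (x, 2) rfl) hR1 hR2)⟩
        rw [hz2]
        show MajA (if ¬ Plain (r x) then _ else ∅) _ _ _
        rw [if_pos hx]
        exact a2 ω hω
  choose N2 u2 m2 b2 using Z2
  choose U1 hU1 using u1
  choose U2 hU2 using u2
  refine ⟨Bq 0 (⌈(R0 p S₀ + 4) * n⌉ + 1), univ.biUnion U1, univ.biUnion U2,
    fun ω => ∑ j, N1 j ω, fun ω => ∑ j, N2 j ω, fun v hv => ?_, fun ω ω' hw => ?_,
    fun ω ω' hw => ?_, fun ω hω => ?_, fun ω hω => ?_, fun c hc hfl => ?_, ?_, ?_⟩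
  · refine Bq_of_nm ?_
    rw [sub_zero]
    have h2 : (nm v : ℝ) ≤ (⌈(R0 p S₀ + 4) * n⌉ : ℤ) := hv.trans (Int.le_ceil _)
    have h3 : nm v ≤ ⌈(R0 p S₀ + 4) * n⌉ := by exact_mod_cast h2
    omega
  · exact sum_congr rfl fun j _ => hU1 j ω ω' fun v hv =>
      hw v (mem_biUnion.2 ⟨j, mem_univ _, hv⟩)
  · exact sum_congr rfl fun j _ => hU2 j ω ω' fun v hv =>
      hw v (mem_biUnion.2 ⟨j, mem_univ _, hv⟩)
  · refine MajA.cover (s := univ) (fun v hv => ?_) fun j _ => m1 j ω hω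
    obtain ⟨x, hx⟩ := mem_hB.1 hv
    by_cases h : ∃ q : (Fin l × Fin (Q.m + 1)) × Fin 3, q.2 ≠ 2 ∧
      v ∈ Bq (ctr (r q.1) q.2) (2 * ⌊δ * n / 16⌋)
    · obtain ⟨q, hq, hv'⟩ := h
      refine ⟨Sum.inr q, mem_univ _, ?_⟩
      rw [hz1, Sum.elim_inr, if_pos hq]
      exact hv'
    · push Not at h
      refine ⟨Sum.inl x, mem_univ _, ?_⟩
      rw [hz1, Sum.elim_inl]
      refine mem_filter.2 ⟨hx, fun q hq => ?_⟩
      rw [← hr]
      exact h q hq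
  · refine MajA.cover (s := univ) (fun v hv => ?_) fun j _ => m2 j ω hω
    by_cases h : ∃ x : Fin l × Fin (Q.m + 1), ¬ Plain (r x) ∧
      v ∈ Bq (ctr (r x) 2) (2 * ⌊4 * κ' * n⌋)
    · obtain ⟨x, hx, hv'⟩ := h
      refine ⟨some x, mem_univ _, ?_⟩
      rw [hz2]
      show v ∈ (if ¬ Plain (r x) then _ else ∅)
      rw [if_pos hx]
      exact hv'
    · push Not at h
      refine ⟨none, mem_univ _, ?_⟩
      rw [hz2]
      refine mem_filter.2 ⟨hv, fun x hx => ?_⟩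
      rw [← hr] at hx ⊢
      exact h x hx
  · -- both scales
    obtain ⟨E, hE⟩ : ∃ E, E = EF P (uI r) σ (PTW θ r univ R) := ⟨_, rfl⟩
    have hE0 : 0 ≤ E := by rw [hE]; exact EF_nonneg fun ω => PTW_nonneg h0 h1 _ _ _ _
    have hJ : (univ : Finset (((Fin l × Fin (Q.m + 1)) ⊕ ((Fin l × Fin (Q.m + 1)) × Fin 3)) ⊕
        Option (Fin l × Fin (Q.m + 1)))).card + 1 ≤ m₀ := by
      rw [card_univ, Fintype.card_sum, Fintype.card_sum, Fintype.card_option, Fintype.card_prod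
        (Fin l × Fin (Q.m + 1)) (Fin 3), Fintype.card_fin 3, hm₀]
      omega
    have hJ' : ((((univ : Finset (((Fin l × Fin (Q.m + 1)) ⊕ ((Fin l × Fin (Q.m + 1)) × Fin 3)) ⊕
        Option (Fin l × Fin (Q.m + 1)))).card + 1 : ℕ)) : ℝ) ≤ m₀ := by exact_mod_cast hJ
    have hflo := e5 σ c hc hfl univ R hR1 hR2
    have hmul : ∀ t : ℝ, ∀ ω : Cfg, t * (2 * (Real.tan θ * Sm (dv c) (κ' * n) ω)) =
        (t * 2) * (Real.tan θ * Sm (dv c) (κ' * n) ω) := fun t ω => by ring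
    obtain ⟨-, key⟩ := EF_comb hgd hA2 (PTW_LF θ r univ R) (fun ω => PTW_nonneg h0 h1 _ _ _ _)
      univ (fun j => Sum.elim N1 N2 j) (by
        rintro (j | j)
        · exact ⟨_, hU1 j⟩
        · exact ⟨_, hU2 j⟩)
      (z := fun ω => 2 * (Real.tan θ * Sm (dv c) (κ' * n) ω)) (fun t ht ht' => by
        simp only [hmul]
        exact (hflo (t * 2) (by positivity) (by linarith)).1) hJ (C1 := Cm) (C2 := C5 + 1) hCm0
      (by positivity) hE0 (by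
        rw [hE]
        rintro (j | j)
        · rw [← hs]
          exact b1 j univ fun _ _ => mem_univ _
        · rw [← hs]
          exact b2 j univ fun _ _ => mem_univ _) (by
        simp only [hmul]
        rw [hE]
        refine ((hflo _ (by positivity) (by linarith)).2).trans ?_
        rw [← hE]
        linarith)
    have eI : ∀ ω, Ttip θ r ⌊δ * n / 16⌋ ω * Tjun θ r ⌊4 * κ' * n⌋ ω *
        (A ^ (∑ j, N1 j ω + ∑ j, N2 j ω + 1) *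
          Real.exp (-(Real.tan θ * Sm (dv c) (κ' * n) ω))) ^ 2 =
        A ^ 2 * (PTW θ r univ R ω * ((A ^ 2) ^ (∑ j, Sum.elim N1 N2 j ω) *
          Real.exp (-(2 * (Real.tan θ * Sm (dv c) (κ' * n) ω))))) := fun ω => by
      have h4 : ∑ j, Sum.elim N1 N2 j ω = ∑ j, N1 j ω + ∑ j, N2 j ω := by
        rw [Fintype.sum_sum_type]
        rfl
      rw [hRd, PTW_univ, h4]
      rw [mul_pow, ← Real.exp_nat_mul, ← pow_mul, ← pow_mul]
      have h2 : A ^ ((∑ j, N1 j ω + ∑ j, N2 j ω + 1) * 2) =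
          A ^ 2 * A ^ (2 * (∑ j, N1 j ω + ∑ j, N2 j ω)) := by
        rw [← pow_add]
        congr 1
        ring
      have h3 : ((2 : ℕ) : ℝ) * -(Real.tan θ * Sm (dv c) (κ' * n) ω) =
          -(2 * (Real.tan θ * Sm (dv c) (κ' * n) ω)) := by
        push_cast
        ring
      rw [h2, h3]
      ring
    beta_reduce
    simp only [eI]
    rw [EF_mul_left]
    have eT : (fun ω => Ttip θ r ⌊δ * n / 16⌋ ω * Tjun θ r ⌊4 * κ' * n⌋ ω) =
        PTW θ r univ R := funext fun ω => by rw [hRd, PTW_univ]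
    rw [eT, mul_assoc, ← hE]
    exact mul_le_mul_of_nonneg_left key (by positivity)
  · -- the holes
    obtain ⟨W, hW⟩ : ∃ W : Finset ((Fin l × Fin (Q.m + 1)) × Fin 3),
      W = univ.filter fun q => q.2 ≠ 2 := ⟨_, rfl⟩
    obtain ⟨E, hE⟩ : ∃ E, E = EF P (uI r) σ (PTW θ r W R) := ⟨_, rfl⟩
    have hE0 : 0 ≤ E := by rw [hE]; exact EF_nonneg fun ω => PTW_nonneg h0 h1 _ _ _ _
    have hJ : (univ : Finset ((Fin l × Fin (Q.m + 1)) ⊕
        ((Fin l × Fin (Q.m + 1)) × Fin 3))).card + 1 ≤ m₀ := by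
      rw [card_univ, Fintype.card_sum, Fintype.card_prod
        (Fin l × Fin (Q.m + 1)) (Fin 3), Fintype.card_fin 3, hm₀]
      omega
    obtain ⟨-, key⟩ := EF_comb hgd hA2 (PTW_LF θ r W R) (fun ω => PTW_nonneg h0 h1 _ _ _ _)
      univ N1 (fun j => ⟨_, hU1 j⟩) (z := fun _ => 0) (fun t _ _ => ⟨∅, fun _ _ _ => rfl⟩) hJ
      (C1 := Cm) (C2 := C5 + 1) hCm0 (by positivity) hE0 (fun j => by
        rw [hE, ← hs]
        exact b1 j W fun q hq => by rw [hW]; exact mem_filter.2 ⟨mem_univ _, hq⟩) (by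
        simp only [mul_zero, neg_zero, Real.exp_zero, mul_one]
        rw [← hE]
        nlinarith)
    have eI : ∀ ω, Ttip θ r ⌊δ * n / 16⌋ ω * (A ^ (∑ j, N1 j ω + 1)) ^ 2 =
        A ^ 2 * (PTW θ r W R ω * ((A ^ 2) ^ (∑ j, N1 j ω) * Real.exp (-0))) := fun ω => by
      rw [hRd, hW, PTW_tips, neg_zero, Real.exp_zero]
      ring
    beta_reduce
    simp only [eI]
    rw [EF_mul_left]
    have eT : Ttip θ r ⌊δ * n / 16⌋ = PTW θ r W R := funext fun ω => by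
      rw [hRd, hW, PTW_tips]
    rw [eT, mul_assoc, ← hE]
    exact mul_le_mul_of_nonneg_left key (by positivity)
  · -- the macroscopic scale
    obtain ⟨W, hW⟩ : ∃ W : Finset ((Fin l × Fin (Q.m + 1)) × Fin 3),
      W = univ.filter fun q => q.2 = 2 := ⟨_, rfl⟩
    obtain ⟨E, hE⟩ : ∃ E, E = EF P (uI r) σ (PTW θ r W R) := ⟨_, rfl⟩
    have hE0 : 0 ≤ E := by rw [hE]; exact EF_nonneg fun ω => PTW_nonneg h0 h1 _ _ _ _
    have hJ : (univ : Finset (Option (Fin l × Fin (Q.m + 1)))).card + 1 ≤ m₀ := by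
      rw [card_univ, Fintype.card_option, hm₀]
      omega
    obtain ⟨-, key⟩ := EF_comb hgd hA2 (PTW_LF θ r W R) (fun ω => PTW_nonneg h0 h1 _ _ _ _)
      univ N2 (fun j => ⟨_, hU2 j⟩) (z := fun _ => 0) (fun t _ _ => ⟨∅, fun _ _ _ => rfl⟩) hJ
      (C1 := Cm) (C2 := C5 + 1) hCm0 (by positivity) hE0 (fun j => by
        rw [hE, ← hs]
        exact b2 j W fun q hq => by rw [hW]; exact mem_filter.2 ⟨mem_univ _, hq⟩) (by
        simp only [mul_zero, neg_zero, Real.exp_zero, mul_one]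
        rw [← hE]
        nlinarith)
    have eI : ∀ ω, Tjun θ r ⌊4 * κ' * n⌋ ω * (A ^ (∑ j, N2 j ω + 1)) ^ 2 =
        A ^ 2 * (PTW θ r W R ω * ((A ^ 2) ^ (∑ j, N2 j ω) * Real.exp (-0))) := fun ω => by
      rw [hRd, hW, PTW_juns, neg_zero, Real.exp_zero]
      ring
    beta_reduce
    simp only [eI]
    rw [EF_mul_left]
    have eT : Tjun θ r ⌊4 * κ' * n⌋ = PTW θ r W R := funext fun ω => by
      rw [hRd, hW, PTW_juns]
    rw [eT, mul_assoc, ← hE]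
    exact mul_le_mul_of_nonneg_left key (by positivity)

end Vale.Agent.P167.H945.S
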