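import Vale.Agent.P167.QX.S5
import Vale.Agent.P167.H592.U.Near
import Vale.Agent.P167.H592.U.Fam
import Vale.Agent.P167.H592.U.Inst944

/-!
# P167, general `q`, block Q-START: the frames as instances of `QX.FrI`

`own_tip`: a square of a row near a mark is near a tip of its row. `frI`: the instance.
-/

namespace Vale.Agent.P167.Enl

open Finset
open Vale.Agent.P167.Top
open Vale.Agent.P167.FK (Bq Good)
open Vale.Agent.P167.E6 (IsPolygon Encloses dir face)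
open Vale.Agent.P167.H825 (enl pdir Marks FlowIn bsite)
open Vale.Agent.P167.H825.Q (Row Bc frow stτ)
open Vale.Agent.P167.H680.T (rowC uI frows mem_uI)
open Vale.Agent.P167.H662 (hsite)
open Vale.Agent.P167.H199 (Gap)
open Vale.Agent.P167.H398.Q (hB Frz bcol)
open Vale.Agent.P167.H945.Q (Plain ctr)

variable {l : ℕ} {p : ZMod l → ℤ × ℤ} {n : ℕ} {S₀ : Finset (ℤ × ℤ)} {Q : Marks} {bc : Bc}
  {θ β : ℝ}

section frame

variable (hp : IsPolygon p) (hD : Encloses p S₀) (hQ : Q.Ok) {g δ : ℝ} (hg : Gap Q l g)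
  (hδ : 0 < δ) (hδg : 4 * δ ≤ g) (hn : 16 ≤ δ * n)

include hp hQ hg hδ hδg hn in
/-- **A square of a row near a mark is near a tip of its row.** -/
theorem own_tip (x : Fin l × Fin (Q.m + 1)) {a : ℤ × ℤ}
    (ha : a ∈ (frows θ β p Q n ⌊δ * n⌋₊ bc x).I) (m : Fin l × Fin (Q.m + 1)) {ρ : ℤ}
    (h : nm (a - hsite p Q n m) ≤ ρ) : ∃ k : Fin 3, k ≠ 2 ∧
      nm (a - ctr (frows θ β p Q n ⌊δ * n⌋₊ bc x) k) ≤ ρ + 1 := by
  have hl : 0 < l := by have := hp.1; omega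
  have hn0 : (0 : ℝ) ≤ n := Nat.cast_nonneg n
  obtain ⟨b1, b2, b3, b4, b5⟩ := gn_big hQ hg hδg hn hl
  change a ∈ (frow θ β p Q n ⌊δ * n⌋₊ bc x.1 x.2).I at ha
  rw [frow_I] at ha
  obtain ⟨σ, h1, h2, rfl⟩ := mem_rowP.1 ha
  obtain ⟨-, -, e3, e4⟩ := ends_bd (p := p) hQ hg hδ hδg hn x.1.2 (j := x.2) (by omega)
  have f1 := (fl hQ n x.1 (show (x.2 : ℕ) + 1 ≤ Q.m + 1 by omega)).2.2
  have f2 := (fl hQ n m.1 (show (m.2 : ℕ) ≤ Q.m + 1 by omega)).2.2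
  -- it is enough to bound the distance of the steps
  have key : (σ : ℤ) - sW p n Q ⌊δ * n⌋₊ x.1 x.2 ≤ ρ + 1 ∨
      ((eW p n Q ⌊δ * n⌋₊ x.1 x.2 - 1 : ℕ) : ℤ) - σ ≤ ρ + 1 := by
    have hv : nm (vp p n x.1 σ - hsite p Q n m) ≤ ρ + 1 := by
      have a1 := op_near (p := p) (n := n) x.1 σ
      have a2 := nm_tri (vp p n x.1 σ) (op p n x.1 σ) (hsite p Q n m)
      rw [nm_sub_comm (vp p n x.1 σ) (op p n x.1 σ)] at a2
      omega
    by_cases hmx : (m.1 : ℕ) = x.1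
    · have e : hsite p Q n m = vp p n x.1 (⌊Q.θ x.1 m.2 * n⌋₊ : ℕ) := by
        show vp p n m.1 (⌊Q.θ m.1 m.2 * n⌋₊ : ℕ) = _
        rw [hmx]
      rw [e, vp_same, abs_le] at hv
      rcases Nat.lt_or_ge x.2 m.2 with h3 | h3
      · right
        have h4 : ⌊Q.θ x.1 (x.2 + 1) * n⌋₊ ≤ ⌊Q.θ x.1 m.2 * n⌋₊ :=
          Nat.floor_le_floor (mul_le_mul_of_nonneg_right
            (theta_mono hQ x.1 (by omega) (by omega)) hn0)
        omega
      · left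
        have h4 : ⌊Q.θ x.1 m.2 * n⌋₊ ≤ ⌊Q.θ x.1 x.2 * n⌋₊ :=
          Nat.floor_le_floor (mul_le_mul_of_nonneg_right
            (theta_mono hQ x.1 (by omega) (by omega)) hn0)
        omega
    · by_contra hcon
      push Not at hcon
      have h6 := vp_far hp x.1.2 m.1.2 (fun h' => hmx h'.symm) (σ := σ)
        (σ' := (⌊Q.θ m.1 m.2 * n⌋₊ : ℕ)) (m := ρ + 2) (n := n) (by omega)
        (by exact_mod_cast f2) (by omega) (by omega) (by omega)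
      have h7 : nm (vp p n x.1 σ - hsite p Q n m) =
        nm (vp p n x.1 σ - vp p n m.1 (⌊Q.θ m.1 m.2 * n⌋₊ : ℕ)) := rfl
      omega
  have hse : sW p n Q ⌊δ * n⌋₊ x.1 x.2 < eW p n Q ⌊δ * n⌋₊ x.1 x.2 := lt_of_le_of_lt h1 h2
  have g1 : (σ : ℤ) - sW p n Q ⌊δ * n⌋₊ x.1 x.2 ≤ ρ + 1 →
      nm (op p n x.1 σ - op p n x.1 (sW p n Q ⌊δ * n⌋₊ x.1 x.2 : ℕ)) ≤ ρ + 1 := fun h => by
    rw [op_same, abs_of_nonneg (by omega)]
    exact h
  have g2 : ((eW p n Q ⌊δ * n⌋₊ x.1 x.2 - 1 : ℕ) : ℤ) - σ ≤ ρ + 1 →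
      nm (op p n x.1 σ - op p n x.1 ((eW p n Q ⌊δ * n⌋₊ x.1 x.2 - 1 : ℕ) : ℤ)) ≤ ρ + 1 :=
    fun h => by
      rw [op_same, abs_sub_comm, abs_of_nonneg (by omega)]
      exact h
  have k0 : (0 : Fin 3) ≠ 2 := by decide
  have k1 : (1 : Fin 3) ≠ 2 := by decide
  rcases ctr_tips (p := p) (θ := θ) (β := β) (bc := bc) hse with ⟨t0, t1⟩ | ⟨t0, t1⟩
  · rcases key with h | h
    · exact ⟨0, k0, by rw [show ctr (frows θ β p Q n ⌊δ * n⌋₊ bc x) 0 = _ from t0]; exact g1 h⟩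
    · exact ⟨1, k1, by rw [show ctr (frows θ β p Q n ⌊δ * n⌋₊ bc x) 1 = _ from t1]; exact g2 h⟩
  · rcases key with h | h
    · exact ⟨1, k1, by rw [show ctr (frows θ β p Q n ⌊δ * n⌋₊ bc x) 1 = _ from t1]; exact g1 h⟩
    · exact ⟨0, k0, by rw [show ctr (frows θ β p Q n ⌊δ * n⌋₊ bc x) 0 = _ from t0]; exact g2 h⟩

include hp hD hQ hg hδ hδg hn in
/-- **The frame as an instance of `QX.FrI`.** -/
theorem frI (hb : bc.Ok l Q) (hbg : BGap l Q g bc) (hθ : 0 < θ) (hθ' : 3 * θ ≤ Real.pi)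
    (hβ : β = (θ - Real.pi) / 2 ∨ β = (Real.pi - 3 * θ) / 2) {ω : Cfg} (hgd : Good ω)
    (hf : Frz (frows θ β p Q n ⌊δ * n⌋₊ bc) ω) {R : ℕ} (hR1 : ⌊δ * n⌋₊ + 3 ≤ R)
    (hR2 : (2 * R : ℝ) + 8 < g * n) :
    QX.FrI θ β (frows θ β p Q n ⌊δ * n⌋₊ bc) (qN p n (tB n Q)) (enl S₀ n)
      (hB p Q n (⌊δ * n⌋₊ + 4)) (uN p n (tB n Q)) (bc.ka l n (tB n Q)) (l * n - tB n Q)
      (l * (Q.m + 1)) (sR p n Q ⌊δ * n⌋₊) (eR p n Q ⌊δ * n⌋₊) (hsite p Q n) (bcol p Q bc n)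
      (g / 4) n ((⌊δ * n⌋₊ : ℕ) : ℤ) R ω := by
  have hl : 0 < l := by have := hp.1; omega
  obtain ⟨b1, b2, b3, b4, b5⟩ := gn_big hQ hg hδg hn hl
  have ht := tB_lt (n := n) hQ b5
  refine
    { good := hgd
      fam := frame_fam hp hD hQ hg hδ hδg hn hb
      val := frmV hp hD hQ hg hδ hδg hn hb
      geo := frmG hp hD hQ hg hδ hδg hn
      ext := extConn_frame hp hD hQ hg hδ hδg hn
      endH := fun v hv => frame_endK hp hD hQ hg hδ hδg hn hv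
      side := fun m k hk h => ?_
      frz := hf
      frc := fun m v hv hx => frz_box hp hD hQ hg hδ hδg hn hb hbg hf
        (by push_cast; linarith) m hv hx
      win := fun m => ?_
      sepm := fun m m' hm => box_disj hp hQ hg (by push_cast; linarith) hm
      ok := fun i => frows_okg hp hD hQ hθ hθ' hβ hg hbg hδ hδg hn i
      sep := fun i j hij a ha b hb' => frow_far hp hQ hg hδ hδg hn hij ha hb'
      near := fun i j hij a ha b hb' ρ h => near_mk hp hQ hg hδ hδg hn hij ha hb' h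
      tip := fun i k hk => ctr_tip hp hQ hg hδ hδg hn i hk
      own := fun i a ha m ρ h => own_tip hp hQ hg hδ hδg hn i ha m h
      jun := fun i j hi hij b hb' => ?_ }
  · obtain ⟨i, σ, hi, hσ, rfl⟩ := exists_kOf ht hk
    rw [sqL_kOf hp hD ht hi hσ] at h
    exact (mark_side hp hQ hg hbg (by push_cast; linarith) m hi hσ h).2
  · obtain ⟨h1, h2⟩ := frame_holeW (θ := θ) (β := β) (bc := bc) hp hD hQ hg hδ hδg hn hb hbg hR1
      hR2 m
    have e : hτ l n Q bc m = if bcol p Q bc n m then -1 else 1 := by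
      unfold hτ stτ bcol
      show (if kOf l n (tB n Q) m.1 ⌊Q.θ m.1 m.2 * n⌋₊ < bc.ka l n (tB n Q) then (1 : ℝ) else -1) =
        if decide (¬ kOf l n (tB n Q) m.1 ⌊Q.θ m.1 m.2 * n⌋₊ < bc.ka l n (tB n Q)) = true
          then -1 else 1
      by_cases hk : kOf l n (tB n Q) m.1 ⌊Q.θ m.1 m.2 * n⌋₊ < bc.ka l n (tB n Q)
      · rw [if_pos hk, if_neg (by simp [hk])]
      · rw [if_neg hk, if_pos (by simp [hk])]
    rw [e] at h1
    exact ⟨_, _, _, _, _, _, h1, h2⟩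
  · have h1 := ctr_row hp hD hQ hg hδ hδg hn hb hbg hθ hθ' hβ hi hij hb'
    linarith

end frame

end Vale.Agent.P167.Enl
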