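import Vale.Agent.P167.H945.S.SW
import Vale.Agent.P167.H592.S.Tips

/-!
# P167, general `q`, block Q-START: the centres of the rows of a frame, for the moments

`frows_okM`: the rows are admissible at the macroscopic scale. `Tc_ownS`: the factors see their own
row. `oth_tip`, `oth_jun`: the boxes of the other centres. `hole_*`, `mac_*`, `flow_*`: the zones.
-/

namespace Vale.Agent.P167.Enl

open Finset
open Vale.Agent.P167.FK (Bq Good)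
open Vale.Agent.P167.E6 (IsPolygon Encloses)
open Vale.Agent.P167.BR hiding dv
open Vale.Agent.P167.H825 (dv enl pdir Marks FlowIn epos)
open Vale.Agent.P167.H825.Q (Row Bc frow srow_L frow_eq jpos)
open Vale.Agent.P167.H680.T (uI frows mem_uI)
open Vale.Agent.P167.H662 (hsite)
open Vale.Agent.P167.H199 (Gap)
open Vale.Agent.P167.H166 (bxx mem_bxx)
open Vale.Agent.P167.H562.QM (Nr OneC)
open Vale.Agent.P167.H945.Q (ctr Plain Sp ctr_mem ctr_sep1 Tc Tc_row Tc_plain Bq_of_nm nm_of_Bq)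

variable {l : ℕ} {p : ZMod l → ℤ × ℤ} {n : ℕ} {S₀ : Finset (ℤ × ℤ)} {Q : Marks} {bc : Bc}
  {θ β : ℝ}

section frame

variable (hp : IsPolygon p) (hD : Encloses p S₀) (hQ : Q.Ok) {g δ : ℝ} (hg : Gap Q l g)
  (hδ : 0 < δ) (hδg : 4 * δ ≤ g) (hn : 16 ≤ δ * n)
  (hb : bc.Ok l Q) (hbg : BGap l Q g bc) (hθ : 0 < θ) (hθ' : 3 * θ ≤ Real.pi)
  (hβ : β = (θ - Real.pi) / 2 ∨ β = (Real.pi - 3 * θ) / 2)

include hp hD hQ hg hδ hδg hn hb hbg hθ hθ' hβ in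
/-- The rows are admissible at the macroscopic scale. -/
theorem frows_okM (x : Fin l × Fin (Q.m + 1)) :
    (frows θ β p Q n ⌊δ * n⌋₊ bc x).Ok θ (g / 4) n := by
  have hl : 0 < l := by have := hp.1; omega
  have hn0 : (0 : ℝ) ≤ n := Nat.cast_nonneg n
  obtain ⟨b1, b2, b3, b4, b5⟩ := gn_big hQ hg hδg hn hl
  have hok := frows_ok hp hD hQ hg hδ hδg hn hbg hθ hθ' hβ x
  obtain ⟨⟨s1, s2⟩, ⟨e1, e2⟩, e3, e4⟩ :=
    ends_bd (p := p) hQ hg hδ hδg hn x.1.2 (j := x.2) (by omega)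
  have g1 := hg.1 x.1 x.1.2 x.2 (by omega)
  have g2 : g * n ≤ (Q.θ x.1 (x.2 + 1) - Q.θ x.1 x.2) * n :=
    mul_le_mul_of_nonneg_right (by linarith) hn0
  have g3 : 4 * (δ * n) ≤ g * n := by
    have := mul_le_mul_of_nonneg_right hδg hn0
    linarith
  have hse : sW p n Q ⌊δ * n⌋₊ x.1 x.2 ≤ eW p n Q ⌊δ * n⌋₊ x.1 x.2 := by
    have : ((sW p n Q ⌊δ * n⌋₊ x.1 x.2 : ℕ) : ℝ) ≤ (eW p n Q ⌊δ * n⌋₊ x.1 x.2 : ℕ) := by
      nlinarith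
    exact_mod_cast this
  have hL : (frows θ β p Q n ⌊δ * n⌋₊ bc x).L =
      eW p n Q ⌊δ * n⌋₊ x.1 x.2 - sW p n Q ⌊δ * n⌋₊ x.1 x.2 := by
    show (frow θ β p Q n ⌊δ * n⌋₊ bc x.1 x.2).L = _
    rw [frow_eq]
    exact srow_L _ _ _ _ _ _ _
  have hLr : ((frows θ β p Q n ⌊δ * n⌋₊ bc x).L : ℝ) =
      (eW p n Q ⌊δ * n⌋₊ x.1 x.2 : ℝ) - (sW p n Q ⌊δ * n⌋₊ x.1 x.2 : ℝ) := by
    rw [hL, Nat.cast_sub hse]
  refine ⟨?_, hok.s, ?_⟩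
  · rw [hLr]
    nlinarith
  · by_cases hx : Plain (frows θ β p Q n ⌊δ * n⌋₊ bc x)
    · exact Or.inl hx
    · right
      rcases hok.kind with h | ⟨h, -⟩
      · exact absurd h hx
      refine ⟨h, ?_⟩
      obtain ⟨σ, jp, -, -, c2, c3, c4, -, -, c7⟩ :=
        spec_pos hp hD hQ hg hδ hδg hn hb hbg hθ hθ' hβ hx
      have hk : (frows θ β p Q n ⌊δ * n⌋₊ bc x).k0 = if pdir p x.1 = 0 ∨ pdir p x.1 = 1 then
          jp - sW p n Q ⌊δ * n⌋₊ x.1 x.2 else eW p n Q ⌊δ * n⌋₊ x.1 x.2 - jp := by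
        rw [c2]
        show (frow θ β p Q n ⌊δ * n⌋₊ bc x.1 x.2).k0 = _
        rw [frow_eq]
        exact srow_k0 _ _ _ _ _ _ _
      have d1 := c7 x.2 (by omega)
      have d2 := c7 (x.2 + 1) (by omega)
      have j1 : ((sW p n Q ⌊δ * n⌋₊ x.1 x.2 : ℕ) : ℝ) ≤ jp := by exact_mod_cast c3.le
      have j2 : (jp : ℝ) ≤ (eW p n Q ⌊δ * n⌋₊ x.1 x.2 : ℕ) := by exact_mod_cast c4.le
      have k1 : ((⌊Q.θ x.1 x.2 * n⌋₊ : ℕ) : ℝ) ≤ (sW p n Q ⌊δ * n⌋₊ x.1 x.2 : ℕ) := by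
        exact_mod_cast (by omega : ⌊Q.θ x.1 x.2 * n⌋₊ ≤ sW p n Q ⌊δ * n⌋₊ x.1 x.2)
      have k2 : ((eW p n Q ⌊δ * n⌋₊ x.1 x.2 : ℕ) : ℝ) ≤ (⌊Q.θ x.1 (x.2 + 1) * n⌋₊ : ℕ) := by
        exact_mod_cast (by omega : eW p n Q ⌊δ * n⌋₊ x.1 x.2 ≤ ⌊Q.θ x.1 (x.2 + 1) * n⌋₊)
      rw [abs_of_nonneg (by linarith)] at d1
      rw [abs_sub_comm, abs_of_nonneg (by linarith)] at d2
      have f1 := Nat.lt_floor_add_one (Q.θ x.1 x.2 * n)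
      have f2 : ((⌊Q.θ x.1 (x.2 + 1) * n⌋₊ : ℕ) : ℝ) ≤ Q.θ x.1 (x.2 + 1) * n :=
        Nat.floor_le (mul_nonneg (theta_nonneg hQ x.1 (by omega)) hn0)
      have m1 : g / 4 * n ≤ (jp : ℝ) - (sW p n Q ⌊δ * n⌋₊ x.1 x.2 : ℕ) := by nlinarith
      have m2 : g / 4 * n ≤ ((eW p n Q ⌊δ * n⌋₊ x.1 x.2 : ℕ) : ℝ) - jp := by nlinarith
      rw [hk, hLr]
      split_ifs with hr
      · rw [Nat.cast_sub (by omega)]
        exact ⟨m1, by linarith⟩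
      · rw [Nat.cast_sub (by omega)]
        exact ⟨m2, by linarith⟩

include hp hD hQ hg hδ hδg hn hb hbg hθ hθ' hβ in
/-- The boxes of the centres see their own row. -/
theorem own_S {x : Fin l × Fin (Q.m + 1)} {k : Fin 3}
    (hk : Sp (frows θ β p Q n ⌊δ * n⌋₊ bc x) k) {ρ : ℤ} (h1 : k ≠ 2 → ρ + 3 < ⌊δ * n⌋₊)
    (h2 : k = 2 → (ρ : ℝ) + 3 < g * n) {v : ℤ × ℤ}
    (hv : v ∈ Bq (ctr (frows θ β p Q n ⌊δ * n⌋₊ bc x) k) ρ)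
    (hu : v ∈ uI (frows θ β p Q n ⌊δ * n⌋₊ bc)) : v ∈ (frows θ β p Q n ⌊δ * n⌋₊ bc x).I := by
  by_cases hk2 : k = 2
  · subst hk2
    exact ctr_own2 hp hD hQ hg hδ hδg hn hb hbg hθ hθ' hβ x (hk rfl) (h2 rfl) hv hu
  · exact ctr_own hp hD hQ hg hδ hδg hn hbg hθ hθ' hβ x hk (h1 hk2) hv hu

include hp hD hQ hg hδ hδg hn hb hbg hθ hθ' hβ in
/-- The factors see their own row. -/
theorem Tc_ownS {x : Fin l × Fin (Q.m + 1)} {k : Fin 3}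
    (hk : Sp (frows θ β p Q n ⌊δ * n⌋₊ bc x) k) {ρ : ℤ} (h1 : k ≠ 2 → ρ + 3 < ⌊δ * n⌋₊)
    (h2 : k = 2 → (ρ : ℝ) + 3 < g * n) (ω : Cfg) :
    Tc θ (uI (frows θ β p Q n ⌊δ * n⌋₊ bc)) (frows θ β p Q n ⌊δ * n⌋₊ bc x) k ρ ω =
      Tc θ (frows θ β p Q n ⌊δ * n⌋₊ bc x).I (frows θ β p Q n ⌊δ * n⌋₊ bc x) k ρ ω := by
  have hl : 0 < l := by have := hp.1; omega
  obtain ⟨b1, b2, b3, b4, b5⟩ := gn_big hQ hg hδg hn hl
  refine Tc_row (fun v hv => mem_uI.2 ⟨_, hv⟩) (fun v hv hu =>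
    own_S hp hD hQ hg hδ hδg hn hb hbg hθ hθ' hβ hk h1 h2 hv hu) (fun e he h => ?_) fun h => ?_
  · obtain ⟨y, hy⟩ := mem_uI.1 h
    by_cases hxy : y = x
    · rw [← hxy]
      exact hy
    · exfalso
      have h3 := frow_far (θ := θ) (β := β) (bc := bc) hp hQ hg hδ hδg hn hxy hy he
      have h4 := H680.T.nm_ht e
      rw [nm_sub_comm] at h4
      omega
  · have h3 := (H945.Q.ok_k0 (frows_ok hp hD hQ hg hδ hδg hn hbg hθ hθ' hβ x) h).2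
    have h4 : ((frows θ β p Q n ⌊δ * n⌋₊ bc x).k0 : ℝ) ≤
      (frows θ β p Q n ⌊δ * n⌋₊ bc x).L := by linarith
    exact_mod_cast h4

include hp hD hQ hg hδ hδg hn hb hbg hθ hθ' hβ in
/-- The boxes of the other centres: a tip. -/
theorem oth_tip {x y : Fin l × Fin (Q.m + 1)} {k m : Fin 3} (hk : k ≠ 2)
    (hm : Sp (frows θ β p Q n ⌊δ * n⌋₊ bc y) m) (hne : x ≠ y ∨ k ≠ m) {ρ ρ' : ℤ}
    (h1 : m ≠ 2 → ρ + ρ' + 3 < ⌊δ * n⌋₊)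
    (h2 : m = 2 → (ρ : ℝ) + ρ' + ⌊δ * n⌋₊ + 4 < g * n) {v : ℤ × ℤ}
    (hv : v ∈ Bq (ctr (frows θ β p Q n ⌊δ * n⌋₊ bc x) k) ρ) :
    v ∉ Bq (ctr (frows θ β p Q n ⌊δ * n⌋₊ bc y) m) ρ' := by
  intro hv'
  have h3 := mem_Bq' hv
  have h4 := mem_Bq' hv'
  have h5 := nm_tri (ctr (frows θ β p Q n ⌊δ * n⌋₊ bc x) k) v
    (ctr (frows θ β p Q n ⌊δ * n⌋₊ bc y) m)
  rw [nm_sub_comm (ctr (frows θ β p Q n ⌊δ * n⌋₊ bc x) k) v] at h5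
  by_cases hm2 : m = 2
  · subst hm2
    have h6 := ctr_tip_far hp hD hQ hg hδ hδg hn hb hbg hθ hθ' hβ (hm rfl) x hk
    rw [nm_sub_comm] at h6
    have h7 : (nm (ctr (frows θ β p Q n ⌊δ * n⌋₊ bc x) k -
      ctr (frows θ β p Q n ⌊δ * n⌋₊ bc y) 2) : ℝ) ≤ ρ + ρ' := by
      exact_mod_cast h5.trans (add_le_add h3 h4)
    have := h2 rfl
    linarith
  · have h6 := ctr_ctr' hp hD hQ hg hδ hδg hn hbg hθ hθ' hβ hne (fun h => absurd h hk) hm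
    have := h1 hm2
    omega

include hp hD hQ hg hδ hδg hn hb hbg hθ hθ' hβ in
/-- The boxes of the other centres: a special point. -/
theorem oth_jun {x y : Fin l × Fin (Q.m + 1)} {m : Fin 3}
    (hk : ¬ Plain (frows θ β p Q n ⌊δ * n⌋₊ bc x))
    (hm : Sp (frows θ β p Q n ⌊δ * n⌋₊ bc y) m) (hne : x ≠ y ∨ 2 ≠ m) {ρ ρ' : ℤ}
    (h2 : (ρ : ℝ) + ρ' + ⌊δ * n⌋₊ + 4 < g * n) {v : ℤ × ℤ}
    (hv : v ∈ Bq (ctr (frows θ β p Q n ⌊δ * n⌋₊ bc x) 2) ρ) :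
    v ∉ Bq (ctr (frows θ β p Q n ⌊δ * n⌋₊ bc y) m) ρ' := by
  intro hv'
  have h3 := mem_Bq' hv
  have h4 := mem_Bq' hv'
  have h5 := nm_tri (ctr (frows θ β p Q n ⌊δ * n⌋₊ bc x) 2) v
    (ctr (frows θ β p Q n ⌊δ * n⌋₊ bc y) m)
  rw [nm_sub_comm (ctr (frows θ β p Q n ⌊δ * n⌋₊ bc x) 2) v] at h5
  have h7 : (nm (ctr (frows θ β p Q n ⌊δ * n⌋₊ bc x) 2 -
    ctr (frows θ β p Q n ⌊δ * n⌋₊ bc y) m) : ℝ) ≤ ρ + ρ' := by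
    exact_mod_cast h5.trans (add_le_add h3 h4)
  have hd0 : (0 : ℝ) ≤ ⌊δ * n⌋₊ := Nat.cast_nonneg _
  by_cases hm2 : m = 2
  · subst hm2
    have h6 := ctr_ctr hp hD hQ hg hδ hδg hn hb hbg hθ hθ' hβ hk (hm rfl)
      (hne.resolve_right fun h => h rfl)
    linarith
  · have h6 := ctr_tip_far hp hD hQ hg hδ hδg hn hb hbg hθ hθ' hβ hk y hm2
    linarith

end frame

end Vale.Agent.P167.Enl
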