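import Vale.Agent.P167.H945.S.SMom

/-!
# P167, general `q`, block Q-START: moments for a frame, macroscopic scale
-/

namespace Vale.Agent.P167.H945.S

open Finset MeasureTheory Filter
open Vale.Agent.P167.BR hiding dv
open Vale.Agent.P167.FK
open Vale.Agent.P167.E6 (IsPolygon Encloses)
open Vale.Agent.P167.H519 (IsLim)
open Vale.Agent.P167.H825 (dv epos enl Marks FlowIn)
open Vale.Agent.P167.H825.Q (Row Bc)
open Vale.Agent.P167.H166 (bxx mem_bxx)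
open Vale.Agent.P167.H680.T (rowC uI mem_uI frows)
open Vale.Agent.P167.H506.Q (EF fz LF EF_tr EF_le EF_lin EF_nonneg)
open Vale.Agent.P167.H562.QM
open Vale.Agent.P167.H562.MAJ (Sm)
open Vale.Agent.P167.H662 (hsite)
open Vale.Agent.P167.H199 (Gap)
open Vale.Agent.P167.H945.Q
open Vale.Agent.P167.Enl (BGap R0 nm_enl gn_big ctr_tip ctr_mark row_flow ctr_in uI_frows frows_ok
  frows_okM own_S Tc_ownS oth_tip oth_jun oneC_small oneC_off)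

variable {l : ℕ} {p : ZMod l → ℤ × ℤ} {S₀ : Finset (ℤ × ℤ)} {Q : Marks} {bc : Bc} {θ β g : ℝ}
  {P : Measure Cfg}

theorem nm_nn (v : ℤ × ℤ) : 0 ≤ nm v := (abs_nonneg _).trans (le_max_left _ _)

theorem R0_nonneg (p : ZMod l → ℤ × ℤ) (S₀ : Finset (ℤ × ℤ)) : 0 ≤ R0 p S₀ := by
  unfold Enl.R0
  refine add_nonneg (sum_nonneg fun i _ => ?_) (sum_nonneg fun f _ => ?_)
  · exact_mod_cast nm_nn _
  · exact_mod_cast nm_nn _

/-- The macroscopic segments off the special points. -/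
theorem EF_mac (h0 : 0 < θ) (h1 : θ ≤ Real.pi / 3) (hR : RSW (2 * Real.cos θ))
    (hP : IsLim (2 * Real.cos θ) P) (hgd : ∀ᵐ ω ∂P, Good ω) (hp : IsPolygon p)
    (hD : Encloses p S₀) (hQ : Q.Ok) (hg : Gap Q l g) {κ' : ℝ} (hκ' : 0 < κ')
    (hκg : 200 * κ' ≤ g) (s : ℝ) :
    ∃ C δ₀ : ℝ, 0 < C ∧ 0 < δ₀ ∧ ∀ δ : ℝ, 0 < δ → 20 * δ ≤ g → δ < δ₀ → ∀ᶠ n : ℕ in atTop,
    ∀ σ : Cfg, Frz (frows θ β p Q n ⌊δ * (n : ℝ)⌋₊ bc) σ → ∃ N : Cfg → ℕ,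
    (∃ U : Finset (ℤ × ℤ), ∀ ω ω' : Cfg, (∀ v ∈ U, ω v = ω' v) → N ω = N ω') ∧
    (∀ ω, MajA (macZ θ β p Q bc n ⌊δ * (n : ℝ)⌋₊ ⌊4 * κ' * n⌋ (⌈(R0 p S₀ + 4) * n⌉ + 1))
      (κ' * n) ω (N ω)) ∧
    ∀ (W : Finset ((Fin l × Fin (Q.m + 1)) × Fin 3)) (R : (Fin l × Fin (Q.m + 1)) × Fin 3 → ℤ),
      (∀ q, q.2 ≠ 2 → R q = ⌊δ * n / 16⌋) → (∀ q, q.2 = 2 → R q = ⌊4 * κ' * n⌋) →
      EF P (uI (frows θ β p Q n ⌊δ * (n : ℝ)⌋₊ bc)) σ
        (fun ω => PTW θ (frows θ β p Q n ⌊δ * (n : ℝ)⌋₊ bc) W R ω * Real.exp (s * (N ω : ℝ))) ≤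
      C * EF P (uI (frows θ β p Q n ⌊δ * (n : ℝ)⌋₊ bc)) σ
        (PTW θ (frows θ β p Q n ⌊δ * (n : ℝ)⌋₊ bc) W R) := by
  classical
  have hl : 0 < l := by have := hp.1; omega
  have hθ' : 3 * θ ≤ Real.pi := by linarith
  have hR0 := R0_nonneg p S₀
  obtain ⟨e1, he1, key⟩ := EF_zoneW h0 h1 hR hP hgd (Fintype.card (Fin l × Fin (Q.m + 1)))
  obtain ⟨C, ρ0, hC, hρ0, key⟩ := key κ' (R0 p S₀ + 6) s hκ' (by linarith)
  have hs1 : 0 < 1 + |s| := by positivity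
  obtain ⟨t, ht⟩ : ∃ t, t = e1 * κ' / (1 + |s|) := ⟨_, rfl⟩
  have ht0 : 0 < t := by rw [ht]; positivity
  rw [← ht] at key
  refine ⟨C, t / 4, hC, by positivity, fun δ hδ hδg hδt => ?_⟩
  have hlim : Tendsto (fun n : ℕ => δ * (n : ℝ)) atTop atTop :=
    tendsto_natCast_atTop_atTop.const_mul_atTop hδ
  have hlim' : Tendsto (fun n : ℕ => κ' * (n : ℝ)) atTop atTop :=
    tendsto_natCast_atTop_atTop.const_mul_atTop hκ'
  have hlimt : Tendsto (fun n : ℕ => t * (n : ℝ)) atTop atTop :=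
    tendsto_natCast_atTop_atTop.const_mul_atTop ht0
  filter_upwards [hlim.eventually_ge_atTop 64, hlim'.eventually_ge_atTop 1,
    hlimt.eventually_ge_atTop 2, tendsto_natCast_atTop_atTop.eventually_ge_atTop ρ0,
    tendsto_natCast_atTop_atTop.eventually_ge_atTop (1 : ℝ)] with n hn hnκ hnt hnρ hn1
  intro σ hσ
  have hδg' : 4 * δ ≤ g := by linarith
  have hn16 : 16 ≤ δ * n := by linarith
  have hn0 : (0 : ℝ) ≤ n := Nat.cast_nonneg n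
  have hgn : 20 * (δ * n) ≤ g * n := by
    have := mul_le_mul_of_nonneg_right hδg hn0
    linarith
  have hgκ : 200 * (κ' * n) ≤ g * n := by
    have := mul_le_mul_of_nonneg_right hκg hn0
    linarith
  have hδtn : 4 * (δ * n) ≤ t * n := by
    have := mul_le_mul_of_nonneg_right hδt.le hn0
    linarith
  obtain ⟨b1, b2, b3, b4, b5⟩ := gn_big hQ hg hδg' hn16 hl
  have hfl' : (⌊δ * n⌋₊ : ℝ) ≤ δ * n := Nat.floor_le (by linarith)
  have hρ1 : ((⌊δ * n / 16⌋ : ℤ) : ℝ) ≤ δ * n / 16 := Int.floor_le _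
  have hρ3 : ((⌊4 * κ' * n⌋ : ℤ) : ℝ) ≤ 4 * κ' * n := Int.floor_le _
  have hρ4 : 4 * κ' * n - 1 < ((⌊4 * κ' * n⌋ : ℤ) : ℝ) := Int.sub_one_lt_floor _
  have eqv : Fin (Fintype.card (Fin l × Fin (Q.m + 1))) ≃ Fin l × Fin (Q.m + 1) :=
    (Fintype.equivFin _).symm
  obtain ⟨N, hN1, hN2, hN3⟩ := key n hnρ 0
    (macZ θ β p Q bc n ⌊δ * (n : ℝ)⌋₊ ⌊4 * κ' * n⌋ (⌈(R0 p S₀ + 4) * n⌉ + 1)) (fun v hv => by
      have h3 := nm_of_Bq (Finset.mem_filter.1 hv).1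
      have h4 : (nm (v - 0) : ℝ) ≤ ((⌈(R0 p S₀ + 4) * n⌉ + 1 : ℤ) : ℝ) := by exact_mod_cast h3
      have h5 := (Int.ceil_lt_add_one ((R0 p S₀ + 4) * n)).le
      push_cast at h4
      nlinarith) fun i => hsite p Q n (eqv i)
  refine ⟨N, hN1, hN2, fun W R hR1 hR2 => ?_⟩
  refine hN3 _ W R σ hσ (fun D η hη hk hD1 hD2 y a ha1 ha2 hya => ?_) fun q _ hq v hv hcon => ?_
  · refine oneC_off hp hD hQ hg hδ hδg' hn16 (θ := θ) (β := β) (bc := bc) (by linarith)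
      (fun z w hw => ?_) (fun v hv hv' => ?_) (fun v hv hv' => ?_) fun z v hv hv' => ?_
    · have h3 := (hya w hw).2 (eqv.symm z)
      rw [Equiv.apply_symm_apply] at h3
      have h4 : (1 : ℝ) < (nm (w - hsite p Q n z) : ℝ) := by linarith
      exact_mod_cast h4
    · refine hD1 v (hya v hv).1 ?_
      rw [uI_frows]
      exact hv'
    · refine hD2 v ?_
      rw [uI_frows]
      exact hv'
    · have h3 : v ∈ uI (frows θ β p Q n ⌊δ * n⌋₊ bc) := mem_uI.2 ⟨z, hv⟩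
      rw [hk v h3]
      exact hσ z v hv
  · obtain ⟨⟨u, hu, hvu⟩, hoff⟩ := hcon
    have hv1 : (nm (v - ctr (frows θ β p Q n ⌊δ * n⌋₊ bc q.1) q.2) : ℝ) ≤ R q := by
      exact_mod_cast nm_of_Bq hv
    by_cases hq2 : q.2 = 2
    · rw [hR2 q hq2, hq2] at hv1
      have h3 := nm_of_notMem ((Finset.mem_filter.1 hu).2 q.1 (hq hq2))
      have h4 : (((2 * ⌊4 * κ' * n⌋ : ℤ)) : ℝ) ≤ (nm (u - v) : ℝ) +
          nm (v - ctr (frows θ β p Q n ⌊δ * n⌋₊ bc q.1) 2) := by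
        exact_mod_cast h3.trans (nm_sub_le _ v _)
      rw [nm_comm u v] at h4
      push_cast at h4
      linarith
    · rw [hR1 q hq2] at hv1
      obtain ⟨y, hy⟩ := ctr_tip (θ := θ) (β := β) (bc := bc) hp hQ hg hδ hδg' hn16 q.1 hq2
      have h3 := hoff (eqv.symm y)
      rw [Equiv.apply_symm_apply] at h3
      have h4 : (nm (v - hsite p Q n y) : ℝ) ≤
          (nm (v - ctr (frows θ β p Q n ⌊δ * n⌋₊ bc q.1) q.2) : ℝ) +
          nm (ctr (frows θ β p Q n ⌊δ * n⌋₊ bc q.1) q.2 - hsite p Q n y) := by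
        exact_mod_cast nm_sub_le _ _ _
      have h5 : (nm (ctr (frows θ β p Q n ⌊δ * n⌋₊ bc q.1) q.2 - hsite p Q n y) : ℝ) ≤
          (⌊δ * n⌋₊ : ℝ) + 2 := by exact_mod_cast hy
      linarith

/-- The small loops of the flow. -/
theorem EF_flo (h0 : 0 < θ) (h1 : θ ≤ Real.pi / 3) (hR : RSW (2 * Real.cos θ))
    (hP : IsLim (2 * Real.cos θ) P) (hgd : ∀ᵐ ω ∂P, Good ω) (hp : IsPolygon p)
    (hD : Encloses p S₀) (hQ : Q.Ok) (hg : Gap Q l g) (hbg : BGap l Q g bc)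
    (hβ : β = (θ - Real.pi) / 2 ∨ β = (Real.pi - 3 * θ) / 2) {κ' κ B : ℝ} (hκ' : 0 < κ')
    (hκκ : 100 * κ' ≤ κ) {s : ℝ} (hs : 0 ≤ s) :
    ∃ C : ℝ, 0 < C ∧ ∀ δ : ℝ, 0 < δ → 20 * δ ≤ g → δ ≤ κ → ∀ᶠ n : ℕ in atTop,
    ∀ (σ : Cfg) (c : Ed → ℝ), (Function.support c).Finite → FlowIn (enl S₀ n) κ B n c →
    ∀ (W : Finset ((Fin l × Fin (Q.m + 1)) × Fin 3)) (R : (Fin l × Fin (Q.m + 1)) × Fin 3 → ℤ),
      (∀ q, q.2 ≠ 2 → R q = ⌊δ * n / 16⌋) → (∀ q, q.2 = 2 → R q = ⌊4 * κ' * n⌋) →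
      ∀ t : ℝ, 0 ≤ t → t ≤ s →
      LF (fun ω => Real.exp (-(t * (Real.tan θ * Sm (dv c) (κ' * n) ω)))) ∧
      EF P (uI (frows θ β p Q n ⌊δ * (n : ℝ)⌋₊ bc)) σ
        (fun ω => PTW θ (frows θ β p Q n ⌊δ * (n : ℝ)⌋₊ bc) W R ω *
          Real.exp (-(t * (Real.tan θ * Sm (dv c) (κ' * n) ω)))) ≤
      C * EF P (uI (frows θ β p Q n ⌊δ * (n : ℝ)⌋₊ bc)) σ
        (PTW θ (frows θ β p Q n ⌊δ * (n : ℝ)⌋₊ bc) W R) := by
  classical
  have hl : 0 < l := by have := hp.1; omega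
  have hθ' : 3 * θ ≤ Real.pi := by linarith
  have hR0 := R0_nonneg p S₀
  obtain ⟨C, n₀, hC, hn₀, key⟩ := EF_flowW (Rf := R0 p S₀ + 2) (B := B) h0 h1 hR hP hgd s hκ' hs
  refine ⟨C, hC, fun δ hδ hδg hδκ => ?_⟩
  have hlim : Tendsto (fun n : ℕ => δ * (n : ℝ)) atTop atTop :=
    tendsto_natCast_atTop_atTop.const_mul_atTop hδ
  have hlim' : Tendsto (fun n : ℕ => κ' * (n : ℝ)) atTop atTop :=
    tendsto_natCast_atTop_atTop.const_mul_atTop hκ'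
  filter_upwards [hlim.eventually_ge_atTop 64, hlim'.eventually_ge_atTop 1,
    tendsto_natCast_atTop_atTop.eventually_ge_atTop n₀,
    tendsto_natCast_atTop_atTop.eventually_ge_atTop (1 : ℝ)] with n hn hnκ hnn hn1
  intro σ c hc hfl W R hR1 hR2
  have hδg' : 4 * δ ≤ g := by linarith
  have hn16 : 16 ≤ δ * n := by linarith
  have hn0 : (0 : ℝ) ≤ n := Nat.cast_nonneg n
  have hκn : 100 * (κ' * n) ≤ κ * n := by
    have := mul_le_mul_of_nonneg_right hκκ hn0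
    linarith
  have hδn : δ * n ≤ κ * n := mul_le_mul_of_nonneg_right hδκ hn0
  have hρ1 : ((⌊δ * n / 16⌋ : ℤ) : ℝ) ≤ δ * n / 16 := Int.floor_le _
  have hρ3 : ((⌊4 * κ' * n⌋ : ℤ) : ℝ) ≤ 4 * κ' * n := Int.floor_le _
  refine key n hnn hc hfl.dle (fun z hz => ?_) σ
  obtain ⟨e, he, hez⟩ := dv_near hz
  have hez' : (nm (epos e - z) : ℝ) ≤ 1 := by exact_mod_cast hez
  have hκn0 : 0 ≤ κ * n := by linarith
  have hin : epos e ∈ enl S₀ n := hfl.sup e he _ (by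
    rw [sub_self]
    have : nm (0 : ℤ × ℤ) = 0 := by simp [nm]
    rw [this]
    exact_mod_cast hκn0)
  have h2 := nm_enl (p := p) hin
  have hrow : ∀ u ∈ uI (frows θ β p Q n ⌊δ * n⌋₊ bc), κ * n - 1 < (nm (z - u) : ℝ) := by
    intro u hu
    have h3 := row_flow hp hD hQ hg hδ hδg' hn16 hfl hu he
    have h4 : (nm (u - epos e) : ℝ) ≤ nm (u - z) + nm (z - epos e) := by
      exact_mod_cast nm_sub_le _ z _
    rw [nm_comm u z, nm_comm z (epos e)] at h4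
    linarith
  refine ⟨?_, fun u hu => ?_, fun q _ hq u hu => ?_⟩
  · have h4 : (nm z : ℝ) ≤ nm (z - epos e) + nm (epos e) := by
      have := nm_sub_le z (epos e) 0
      rw [sub_zero, sub_zero] at this
      exact_mod_cast this
    rw [nm_comm z] at h4
    nlinarith
  · have := hrow u hu
    linarith
  · have h3 := ctr_in hp hD hQ hg hδ hδg' hn16 hbg h0 hθ' hβ q.1 hq
    have h4 := hrow _ (mem_uI.2 ⟨_, h3⟩)
    have h5 : (nm (z - ctr (frows θ β p Q n ⌊δ * n⌋₊ bc q.1) q.2) : ℝ) ≤ nm (z - u) +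
        nm (u - ctr (frows θ β p Q n ⌊δ * n⌋₊ bc q.1) q.2) := by
      exact_mod_cast nm_sub_le _ u _
    have h6 : (nm (u - ctr (frows θ β p Q n ⌊δ * n⌋₊ bc q.1) q.2) : ℝ) ≤ R q := by
      exact_mod_cast nm_of_Bq hu
    by_cases hq2 : q.2 = 2
    · rw [hR2 q hq2] at h6
      linarith
    · rw [hR1 q hq2] at h6
      linarith

end Vale.Agent.P167.H945.S
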