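import Vale.Agent.P167.H945.S.SGeo

/-!
# P167, general `q`, block Q-START: moments for a frame

`EF_hole`, `EF_tip`, `EF_jun`, `EF_mac`, `EF_flo`: the moments in the zones of a frame, uniformly in
the size `δ` of the holes.
-/

namespace Vale.Agent.P167.H945.S

open Finset MeasureTheory Filter
open Vale.Agent.P167.BR hiding dv
open Vale.Agent.P167.FK
open Vale.Agent.P167.E6 (IsPolygon Encloses)
open Vale.Agent.P167.H519 (IsLim)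
open Vale.Agent.P167.H825 (dv epos enl Marks FlowIn)
open Vale.Agent.P167.H825.Q (Row Bc)
open Vale.Agent.P167.H166 (bxx mem_bxx)
open Vale.Agent.P167.H680.T (rowC uI mem_uI frows)
open Vale.Agent.P167.H506.Q (EF fz LF EF_tr EF_le EF_lin EF_nonneg)
open Vale.Agent.P167.H562.QM
open Vale.Agent.P167.H562.MAJ (Sm)
open Vale.Agent.P167.H662 (hsite)
open Vale.Agent.P167.H199 (Gap)
open Vale.Agent.P167.H945.Q
open Vale.Agent.P167.Enl (BGap R0 nm_enl gn_big ctr_tip ctr_mark row_flow ctr_in uI_frows frows_ok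
  frows_okM own_S Tc_ownS oth_tip oth_jun oneC_small oneC_off)

variable {l : ℕ} {p : ZMod l → ℤ × ℤ} {S₀ : Finset (ℤ × ℤ)} {Q : Marks} {bc : Bc} {θ β g : ℝ}
  {P : Measure Cfg}

open Classical in
/-- The zone of a hole off the tips. -/
noncomputable def holeZ (θ β : ℝ) (p : ZMod l → ℤ × ℤ) (Q : Marks) (bc : Bc) (n d : ℕ)
    (ρ Rh : ℤ) (x : Fin l × Fin (Q.m + 1)) : Finset (ℤ × ℤ) :=
  (Bq (hsite p Q n x) Rh).filter fun v => ∀ q : (Fin l × Fin (Q.m + 1)) × Fin 3, q.2 ≠ 2 →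
    v ∉ Bq (ctr (frows θ β p Q n d bc q.1) q.2) (2 * ρ)

open Classical in
/-- The macroscopic zone off the special points. -/
noncomputable def macZ (θ β : ℝ) (p : ZMod l → ℤ × ℤ) (Q : Marks) (bc : Bc) (n d : ℕ)
    (ρ Rz : ℤ) : Finset (ℤ × ℤ) :=
  (Bq 0 Rz).filter fun v => ∀ x : Fin l × Fin (Q.m + 1), ¬ Plain (frows θ β p Q n d bc x) →
    v ∉ Bq (ctr (frows θ β p Q n d bc x) 2) (2 * ρ)

theorem nm_of_notMem {x v : ℤ × ℤ} {s : ℤ} (h : v ∉ Bq x s) : s ≤ nm (v - x) := by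
  by_contra hc
  exact h (Bq_of_nm (not_le.1 hc))

/-- The segments near a hole, off the tips. -/
theorem EF_hole (h0 : 0 < θ) (h1 : θ ≤ Real.pi / 3) (hR : RSW (2 * Real.cos θ))
    (hP : IsLim (2 * Real.cos θ) P) (hgd : ∀ᵐ ω ∂P, Good ω) (hp : IsPolygon p)
    (hD : Encloses p S₀) (hQ : Q.Ok) (hb : bc.Ok l Q) (hg : Gap Q l g) (hbg : BGap l Q g bc)
    (hβ : β = (θ - Real.pi) / 2 ∨ β = (Real.pi - 3 * θ) / 2) (s : ℝ) :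
    ∃ C : ℝ, 0 < C ∧ ∀ δ : ℝ, 0 < δ → 20 * δ ≤ g → ∀ᶠ n : ℕ in atTop, ∀ σ : Cfg,
    Frz (frows θ β p Q n ⌊δ * (n : ℝ)⌋₊ bc) σ → ∀ x : Fin l × Fin (Q.m + 1), ∃ N : Cfg → ℕ,
    (∃ U : Finset (ℤ × ℤ), ∀ ω ω' : Cfg, (∀ v ∈ U, ω v = ω' v) → N ω = N ω') ∧
    (∀ ω, MajA (holeZ θ β p Q bc n ⌊δ * (n : ℝ)⌋₊ ⌊δ * n / 16⌋ ⌊4 * δ * n⌋ x) (δ * n / 64) ω
      (N ω)) ∧
    ∀ (W : Finset ((Fin l × Fin (Q.m + 1)) × Fin 3)) (R : (Fin l × Fin (Q.m + 1)) × Fin 3 → ℤ),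
      (∀ q, q.2 ≠ 2 → R q = ⌊δ * n / 16⌋) → (∀ q, q.2 = 2 → (R q : ℝ) ≤ g * n / 4) →
      EF P (uI (frows θ β p Q n ⌊δ * (n : ℝ)⌋₊ bc)) σ
        (fun ω => PTW θ (frows θ β p Q n ⌊δ * (n : ℝ)⌋₊ bc) W R ω * Real.exp (s * (N ω : ℝ))) ≤
      C * EF P (uI (frows θ β p Q n ⌊δ * (n : ℝ)⌋₊ bc)) σ
        (PTW θ (frows θ β p Q n ⌊δ * (n : ℝ)⌋₊ bc) W R) := by
  classical
  have hl : 0 < l := by have := hp.1; omega
  have hθ' : 3 * θ ≤ Real.pi := by linarith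
  obtain ⟨e1, he1, key⟩ := EF_zoneW h0 h1 hR hP hgd 0
  obtain ⟨C, ρ0, hC, hρ0, key⟩ := key (1 / 64) 5 s (by norm_num) (by norm_num)
  refine ⟨C, hC, fun δ hδ hδg => ?_⟩
  have hlim : Tendsto (fun n : ℕ => δ * (n : ℝ)) atTop atTop :=
    tendsto_natCast_atTop_atTop.const_mul_atTop hδ
  filter_upwards [hlim.eventually_ge_atTop 64, hlim.eventually_ge_atTop ρ0] with n hn hnρ
  intro σ hσ x
  have hδg' : 4 * δ ≤ g := by linarith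
  have hn16 : 16 ≤ δ * n := by linarith
  have hn0 : (0 : ℝ) ≤ n := Nat.cast_nonneg n
  have hgn : 20 * (δ * n) ≤ g * n := by
    have := mul_le_mul_of_nonneg_right hδg hn0
    linarith
  obtain ⟨b1, b2, b3, b4, b5⟩ := gn_big hQ hg hδg' hn16 hl
  have hfl : δ * n - 1 < (⌊δ * n⌋₊ : ℝ) := by
    have := Nat.lt_floor_add_one (δ * n)
    linarith
  have hρ1 : ((⌊δ * n / 16⌋ : ℤ) : ℝ) ≤ δ * n / 16 := Int.floor_le _
  have hρ2 : δ * n / 16 - 1 < ((⌊δ * n / 16⌋ : ℤ) : ℝ) := Int.sub_one_lt_floor _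
  have hZ : ∀ v ∈ holeZ θ β p Q bc n ⌊δ * (n : ℝ)⌋₊ ⌊δ * n / 16⌋ ⌊4 * δ * n⌋ x,
      (nm (v - hsite p Q n x) : ℝ) ≤ 4 * (δ * n) := fun v hv => by
    have h3 := nm_of_Bq (Finset.mem_filter.1 hv).1
    have h4 : (nm (v - hsite p Q n x) : ℝ) ≤ ((⌊4 * δ * n⌋ : ℤ) : ℝ) := by exact_mod_cast h3
    have h5 := Int.floor_le (4 * δ * n)
    linarith
  obtain ⟨N, hN1, hN2, hN3⟩ := key (δ * n) hnρ (hsite p Q n x)
    (holeZ θ β p Q bc n ⌊δ * (n : ℝ)⌋₊ ⌊δ * n / 16⌋ ⌊4 * δ * n⌋ x)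
    (fun v hv => (hZ v hv).trans (by nlinarith)) Fin.elim0
  have hd64 : 1 / 64 * (δ * n) = δ * n / 64 := by ring
  refine ⟨N, hN1, fun ω => by rw [← hd64]; exact hN2 ω, fun W R hR1 hR2 => ?_⟩
  refine hN3 _ W R σ hσ (fun D η hη hk hD1 hD2 y a ha1 ha2 hya => ?_) fun q _ hq v hv hcon => ?_
  · refine oneC_small hp hQ hg hδ hδg' hn16 (θ := θ) (β := β) (bc := bc) ?_ (fun v hv hv' => ?_)
      (fun v hv hv' => ?_) fun z v hv hv' => ?_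
    · have h3 : (2 * (a : ℝ) + 3) < (⌊δ * n⌋₊ : ℝ) := by linarith
      exact_mod_cast h3
    · refine hD1 v (hya v hv).1 ?_
      rw [uI_frows]
      exact hv'
    · refine hD2 v ?_
      rw [uI_frows]
      exact hv'
    · have h3 : v ∈ uI (frows θ β p Q n ⌊δ * n⌋₊ bc) := mem_uI.2 ⟨z, hv⟩
      rw [hk v h3]
      exact hσ z v hv
  · obtain ⟨⟨u, hu, hvu⟩, -⟩ := hcon
    have hv1 : (nm (v - ctr (frows θ β p Q n ⌊δ * n⌋₊ bc q.1) q.2) : ℝ) ≤ R q := by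
      exact_mod_cast nm_of_Bq hv
    by_cases hq2 : q.2 = 2
    · have h3 := ctr_mark hp hD hQ hg hδ hδg' hn16 hb hbg h0 hθ' hβ (hq hq2) x
      have h4 := hR2 q hq2
      have h5 := hZ u hu
      have h6 : (nm (ctr (frows θ β p Q n ⌊δ * n⌋₊ bc q.1) 2 - hsite p Q n x) : ℝ) ≤
          nm (ctr (frows θ β p Q n ⌊δ * n⌋₊ bc q.1) 2 - v) + (nm (v - u) +
            nm (u - hsite p Q n x)) := by
        exact_mod_cast (nm_sub_le _ v _).trans (add_le_add le_rfl (nm_sub_le _ u _))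
      rw [nm_comm _ v] at h6
      rw [hq2] at hv1
      linarith
    · rw [hR1 q hq2] at hv1
      have h3 := nm_of_notMem ((Finset.mem_filter.1 hu).2 q hq2)
      have h4 : (((2 * ⌊δ * n / 16⌋ : ℤ)) : ℝ) ≤ (nm (u - v) : ℝ) +
          nm (v - ctr (frows θ β p Q n ⌊δ * n⌋₊ bc q.1) q.2) := by
        exact_mod_cast h3.trans (nm_sub_le _ v _)
      rw [nm_comm u v] at h4
      push_cast at h4
      linarith

/-- The segments near a tip. -/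
theorem EF_tip (h0 : 0 < θ) (h1 : θ ≤ Real.pi / 3) (hb1 : P1b θ)
    (hP : IsLim (2 * Real.cos θ) P) (hgd : ∀ᵐ ω ∂P, Good ω) (hp : IsPolygon p)
    (hD : Encloses p S₀) (hQ : Q.Ok) (hb : bc.Ok l Q) (hg : Gap Q l g) (hbg : BGap l Q g bc)
    (hβ : β = (θ - Real.pi) / 2 ∨ β = (Real.pi - 3 * θ) / 2) (s : ℝ) :
    ∃ C : ℝ, 0 < C ∧ ∀ δ : ℝ, 0 < δ → 20 * δ ≤ g → ∀ᶠ n : ℕ in atTop, ∀ σ : Cfg,
    Frz (frows θ β p Q n ⌊δ * (n : ℝ)⌋₊ bc) σ → ∀ x : Fin l × Fin (Q.m + 1), ∀ k : Fin 3, k ≠ 2 →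
    ∃ N : Cfg → ℕ,
    (∃ U : Finset (ℤ × ℤ), ∀ ω ω' : Cfg, (∀ v ∈ U, ω v = ω' v) → N ω = N ω') ∧
    (∀ ω, Good ω → MajA (Bq (ctr (frows θ β p Q n ⌊δ * (n : ℝ)⌋₊ bc x) k) (2 * ⌊δ * n / 16⌋))
      (δ * n / 64) ω (N ω)) ∧
    ∀ (W : Finset ((Fin l × Fin (Q.m + 1)) × Fin 3)) (R : (Fin l × Fin (Q.m + 1)) × Fin 3 → ℤ),
      (x, k) ∈ W → (∀ q, q.2 ≠ 2 → R q = ⌊δ * n / 16⌋) → (∀ q, q.2 = 2 → (R q : ℝ) ≤ g * n / 4) →
      EF P (uI (frows θ β p Q n ⌊δ * (n : ℝ)⌋₊ bc)) σ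
        (fun ω => PTW θ (frows θ β p Q n ⌊δ * (n : ℝ)⌋₊ bc) W R ω * Real.exp (s * (N ω : ℝ))) ≤
      C * EF P (uI (frows θ β p Q n ⌊δ * (n : ℝ)⌋₊ bc)) σ
        (PTW θ (frows θ β p Q n ⌊δ * (n : ℝ)⌋₊ bc) W R) := by
  classical
  have hl : 0 < l := by have := hp.1; omega
  have hθ' : 3 * θ ≤ Real.pi := by linarith
  obtain ⟨C, ρ0, hC, hsp⟩ := hb1 (1 / 4) s (by norm_num)
  refine ⟨C, hC, fun δ hδ hδg => ?_⟩
  have hlim : Tendsto (fun n : ℕ => δ * (n : ℝ)) atTop atTop :=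
    tendsto_natCast_atTop_atTop.const_mul_atTop hδ
  filter_upwards [hlim.eventually_ge_atTop 64, hlim.eventually_ge_atTop (16 * (ρ0 + 1))]
    with n hn hnρ
  intro σ hσ x k hk
  have hδg' : 4 * δ ≤ g := by linarith
  have hn16 : 16 ≤ δ * n := by linarith
  have hn0 : (0 : ℝ) ≤ n := Nat.cast_nonneg n
  have hgn : 20 * (δ * n) ≤ g * n := by
    have := mul_le_mul_of_nonneg_right hδg hn0
    linarith
  obtain ⟨b1, b2, b3, b4, b5⟩ := gn_big hQ hg hδg' hn16 hl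
  have hfl : δ * n - 1 < (⌊δ * n⌋₊ : ℝ) := by
    have := Nat.lt_floor_add_one (δ * n)
    linarith
  have hfl' : (⌊δ * n⌋₊ : ℝ) ≤ δ * n := Nat.floor_le (by linarith)
  have hρ1 : ((⌊δ * n / 16⌋ : ℤ) : ℝ) ≤ δ * n / 16 := Int.floor_le _
  have hρ2 : δ * n / 16 - 1 < ((⌊δ * n / 16⌋ : ℤ) : ℝ) := Int.sub_one_lt_floor _
  have hSp : Sp (frows θ β p Q n ⌊δ * n⌋₊ bc x) k := fun h => absurd h hk
  have h8 : 8 * ⌊δ * n / 16⌋ ≤ ((⌊δ * n⌋₊ : ℕ) : ℤ) := by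
    have h10 : ((8 * ⌊δ * n / 16⌋ : ℤ) : ℝ) < ((⌊δ * n⌋₊ : ℕ) : ℝ) := by
      push_cast
      linarith
    have h11 : (8 * ⌊δ * n / 16⌋ : ℤ) < ((⌊δ * n⌋₊ : ℕ) : ℤ) := by exact_mod_cast h10
    exact h11.le
  obtain ⟨N, hN1, hN2, hN3⟩ := hsp (frows θ β p Q n ⌊δ * n⌋₊ bc x) ⌊δ * n⌋₊ k ⌊δ * n / 16⌋
    (ok_one (frows_ok hp hD hQ hg hδ hδg' hn16 hbg h0 hθ' hβ x) (by linarith)) hSp
    (by linarith) h8
  have a1 : ⌊δ * n / 16⌋ + 3 < (⌊δ * n⌋₊ : ℤ) := by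
    have : ((⌊δ * n / 16⌋ + 3 : ℤ) : ℝ) < ((⌊δ * n⌋₊ : ℕ) : ℝ) := by
      push_cast
      linarith
    exact_mod_cast this
  have a2 : 4 * ⌊δ * n / 16⌋ + ⌊δ * n / 16⌋ + 3 < (⌊δ * n⌋₊ : ℤ) := by
    have : ((4 * ⌊δ * n / 16⌋ + ⌊δ * n / 16⌋ + 3 : ℤ) : ℝ) < ((⌊δ * n⌋₊ : ℕ) : ℝ) := by
      push_cast
      linarith
    exact_mod_cast this
  have a3 : 0 ≤ ⌊δ * n / 16⌋ := Int.floor_nonneg.2 (by linarith)
  refine ⟨N, ⟨_, hN1⟩, fun ω hω => MajA.mono (hN2 ω hω) (by linarith), fun W R hW hR1 hR2 => ?_⟩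
  have hRx : R (x, k) = ⌊δ * n / 16⌋ := hR1 (x, k) hk
  refine EF_spW (p := (x, k)) h0 h1 hP hgd hσ hW (fun ω => ?_) (fun v hv hu => ?_)
    (fun q _ hq hq' v hv => ?_) (by rw [hRx]; exact hN1) (fun η hη hk' => ?_)
  · rw [hRx]
    exact Tc_ownS hp hD hQ hg hδ hδg' hn16 hb hbg h0 hθ' hβ hSp (fun _ => a1)
      (fun h => absurd h hk) ω
  · rw [hRx] at hv
    exact own_S hp hD hQ hg hδ hδg' hn16 hb hbg h0 hθ' hβ hSp (fun _ => by omega)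
      (fun h => absurd h hk) hv hu
  · rw [hRx] at hv
    refine oth_tip hp hD hQ hg hδ hδg' hn16 hb hbg h0 hθ' hβ (ρ := 4 * ⌊δ * n / 16⌋) hk hq' ?_
      (fun hm => ?_) (fun hm => ?_) hv
    · by_contra hcon
      push Not at hcon
      exact hq (Prod.ext hcon.1.symm hcon.2.symm)
    · rw [hR1 q hm]
      exact a2
    · have := hR2 q hm
      push_cast
      linarith
  · rw [hRx]
    exact hN3 η hη hk'

/-- The segments near a special point. -/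
theorem EF_jun (h0 : 0 < θ) (h1 : θ ≤ Real.pi / 3) (hb1 : P1b θ)
    (hP : IsLim (2 * Real.cos θ) P) (hgd : ∀ᵐ ω ∂P, Good ω) (hp : IsPolygon p)
    (hD : Encloses p S₀) (hQ : Q.Ok) (hb : bc.Ok l Q) (hg : Gap Q l g) (hbg : BGap l Q g bc)
    (hβ : β = (θ - Real.pi) / 2 ∨ β = (Real.pi - 3 * θ) / 2) {κ' : ℝ} (hκ' : 0 < κ')
    (hκg : 200 * κ' ≤ g) (s : ℝ) :
    ∃ C : ℝ, 0 < C ∧ ∀ δ : ℝ, 0 < δ → 20 * δ ≤ g → ∀ᶠ n : ℕ in atTop, ∀ σ : Cfg,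
    Frz (frows θ β p Q n ⌊δ * (n : ℝ)⌋₊ bc) σ → ∀ x : Fin l × Fin (Q.m + 1),
    ¬ Plain (frows θ β p Q n ⌊δ * (n : ℝ)⌋₊ bc x) → ∃ N : Cfg → ℕ,
    (∃ U : Finset (ℤ × ℤ), ∀ ω ω' : Cfg, (∀ v ∈ U, ω v = ω' v) → N ω = N ω') ∧
    (∀ ω, Good ω → MajA (Bq (ctr (frows θ β p Q n ⌊δ * (n : ℝ)⌋₊ bc x) 2) (2 * ⌊4 * κ' * n⌋))
      (κ' * n) ω (N ω)) ∧
    ∀ (W : Finset ((Fin l × Fin (Q.m + 1)) × Fin 3)) (R : (Fin l × Fin (Q.m + 1)) × Fin 3 → ℤ),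
      (x, 2) ∈ W → (∀ q, q.2 ≠ 2 → R q = ⌊δ * n / 16⌋) → (∀ q, q.2 = 2 → R q = ⌊4 * κ' * n⌋) →
      EF P (uI (frows θ β p Q n ⌊δ * (n : ℝ)⌋₊ bc)) σ
        (fun ω => PTW θ (frows θ β p Q n ⌊δ * (n : ℝ)⌋₊ bc) W R ω * Real.exp (s * (N ω : ℝ))) ≤
      C * EF P (uI (frows θ β p Q n ⌊δ * (n : ℝ)⌋₊ bc)) σ
        (PTW θ (frows θ β p Q n ⌊δ * (n : ℝ)⌋₊ bc) W R) := by
  classical
  have hl : 0 < l := by have := hp.1; omega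
  have hθ' : 3 * θ ≤ Real.pi := by linarith
  obtain ⟨C, ρ0, hC, hsp⟩ := hb1 (1 / 4) s (by norm_num)
  refine ⟨C, hC, fun δ hδ hδg => ?_⟩
  have hlim : Tendsto (fun n : ℕ => δ * (n : ℝ)) atTop atTop :=
    tendsto_natCast_atTop_atTop.const_mul_atTop hδ
  have hlim' : Tendsto (fun n : ℕ => κ' * (n : ℝ)) atTop atTop :=
    tendsto_natCast_atTop_atTop.const_mul_atTop hκ'
  filter_upwards [hlim.eventually_ge_atTop 64, hlim'.eventually_ge_atTop (ρ0 + 1),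
    hlim'.eventually_ge_atTop 1] with n hn hnρ hn1
  intro σ hσ x hx
  have hδg' : 4 * δ ≤ g := by linarith
  have hn16 : 16 ≤ δ * n := by linarith
  have hn0 : (0 : ℝ) ≤ n := Nat.cast_nonneg n
  have hgn : 20 * (δ * n) ≤ g * n := by
    have := mul_le_mul_of_nonneg_right hδg hn0
    linarith
  have hgκ : 200 * (κ' * n) ≤ g * n := by
    have := mul_le_mul_of_nonneg_right hκg hn0
    linarith
  obtain ⟨b1, b2, b3, b4, b5⟩ := gn_big hQ hg hδg' hn16 hl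
  have hfl' : (⌊δ * n⌋₊ : ℝ) ≤ δ * n := Nat.floor_le (by linarith)
  have hρ1 : ((⌊δ * n / 16⌋ : ℤ) : ℝ) ≤ δ * n / 16 := Int.floor_le _
  have hρ3 : ((⌊4 * κ' * n⌋ : ℤ) : ℝ) ≤ 4 * κ' * n := Int.floor_le _
  have hρ4 : 4 * κ' * n - 1 < ((⌊4 * κ' * n⌋ : ℤ) : ℝ) := Int.sub_one_lt_floor _
  have hSp : Sp (frows θ β p Q n ⌊δ * n⌋₊ bc x) 2 := fun _ => hx
  have h8 : 8 * ⌊4 * κ' * n⌋ ≤ ((⌊g / 4 * n⌋₊ : ℕ) : ℤ) := by
    have h9 : g / 4 * n - 1 < (⌊g / 4 * n⌋₊ : ℝ) := by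
      have := Nat.lt_floor_add_one (g / 4 * n)
      linarith
    have h10 : ((8 * ⌊4 * κ' * n⌋ : ℤ) : ℝ) < ((⌊g / 4 * n⌋₊ : ℕ) : ℝ) := by
      push_cast
      linarith
    have h11 : (8 * ⌊4 * κ' * n⌋ : ℤ) < ((⌊g / 4 * n⌋₊ : ℕ) : ℤ) := by exact_mod_cast h10
    exact h11.le
  obtain ⟨N, hN1, hN2, hN3⟩ := hsp (frows θ β p Q n ⌊δ * n⌋₊ bc x) ⌊g / 4 * n⌋₊ 2 ⌊4 * κ' * n⌋
    (ok_one (frows_okM hp hD hQ hg hδ hδg' hn16 hb hbg h0 hθ' hβ x) (by linarith)) hSp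
    (by linarith) h8
  refine ⟨N, ⟨_, hN1⟩, fun ω hω => MajA.mono (hN2 ω hω) (by linarith), fun W R hW hR1 hR2 => ?_⟩
  have hRx : R (x, 2) = ⌊4 * κ' * n⌋ := hR2 (x, 2) rfl
  refine EF_spW (p := (x, 2)) h0 h1 hP hgd hσ hW (fun ω => ?_) (fun v hv hu => ?_)
    (fun q _ hq hq' v hv => ?_) (by rw [hRx]; exact hN1) (fun η hη hk' => ?_)
  · rw [hRx]
    exact Tc_ownS hp hD hQ hg hδ hδg' hn16 hb hbg h0 hθ' hβ hSp (fun h => absurd rfl h)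
      (fun _ => by linarith) ω
  · rw [hRx] at hv
    exact own_S hp hD hQ hg hδ hδg' hn16 hb hbg h0 hθ' hβ hSp (fun h => absurd rfl h)
      (fun _ => by push_cast; linarith) hv hu
  · rw [hRx] at hv
    refine oth_jun hp hD hQ hg hδ hδg' hn16 hb hbg h0 hθ' hβ (ρ := 4 * ⌊4 * κ' * n⌋) hx hq' ?_
      ?_ hv
    · by_contra hcon
      push Not at hcon
      exact hq (Prod.ext hcon.1.symm hcon.2.symm)
    · by_cases hq2 : q.2 = 2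
      · rw [hR2 q hq2]
        push_cast
        linarith
      · rw [hR1 q hq2]
        push_cast
        linarith
  · rw [hRx]
    exact hN3 η hη hk'

end Vale.Agent.P167.H945.S
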