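import Vale.Agent.P167.H945.Q.HMaj
import Vale.Agent.P167.H398.Q.Mac

/-!
# P167, general `q`, block Q-START: moments with the factors of a set of centres

`PTW`: product of the factors of the centres of `W` at radii `R`. `EF_spW`, `EF_zoneW`, `EF_flowW`:
moments of the numbers of the large segments near a centre, in a zone, and of the masses of the small
loops, with the factor `PTW`.
-/

namespace Vale.Agent.P167.H945.S

open Finset MeasureTheory Filter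
open Vale.Agent.P167.BR
open Vale.Agent.P167.FK
open Vale.Agent.P167.FKA (Loc Ind Loc.ind Ex_mono Ex_congr)
open Vale.Agent.P167.H519 (IsLim)
open Vale.Agent.P167.H825 (dv epos)
open Vale.Agent.P167.H825.Q (Row)
open Vale.Agent.P167.H166 (bxx mem_bxx)
open Vale.Agent.P167.H680.T (rowC uI mem_uI)
open Vale.Agent.P167.H506.Q (EF fz LF EF_tr EF_le EF_lin EF_nonneg)
open Vale.Agent.P167.H562.QM
open Vale.Agent.P167.H562.MAJ (Sm exists_cball)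
open Vale.Agent.P167.H945.Q

variable {θ : ℝ} {ι : Type} [Fintype ι] {r : ι → Row} {W : Finset (ι × Fin 3)}
  {R : ι × Fin 3 → ℤ}

/-- The product of the factors of the centres of `W`. -/
noncomputable def PTW (θ : ℝ) (r : ι → Row) (W : Finset (ι × Fin 3)) (R : ι × Fin 3 → ℤ)
    (ω : Cfg) : ℝ :=
  ∏ p ∈ W, Tc θ (uI r) (r p.1) p.2 (R p) ω

theorem PTW_nonneg (h0 : 0 < θ) (h1 : θ ≤ Real.pi / 3) (r : ι → Row) (W : Finset (ι × Fin 3))
    (R : ι × Fin 3 → ℤ) (ω : Cfg) : 0 ≤ PTW θ r W R ω :=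
  prod_nonneg fun _ _ => Tc_nonneg h0 h1 _ _ _ _ _

theorem PTW_LF (θ : ℝ) (r : ι → Row) (W : Finset (ι × Fin 3)) (R : ι × Fin 3 → ℤ) :
    LF (PTW θ r W R) :=
  LF.prod _ fun _ _ => ⟨_, Tc_loc _ _ _ _⟩

/-- A factor of a centre does not depend on the squares off its box. -/
theorem Tc_offW {p : ι × Fin 3} {ρ : ℤ} {ω ω' : Cfg}
    (h : Sp (r p.1) p.2 → ∀ v ∈ Bq (ctr (r p.1) p.2) ρ, ω v = ω' v) :
    Tc θ (uI r) (r p.1) p.2 ρ ω = Tc θ (uI r) (r p.1) p.2 ρ ω' := Tc_off h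

/-- **Moments near a centre.** -/
theorem EF_spW (h0 : 0 < θ) (h1 : θ ≤ Real.pi / 3) {P : Measure Cfg}
    (hP : IsLim (2 * Real.cos θ) P) (hg : ∀ᵐ ω ∂P, Good ω) {σ : Cfg} (hσ : Frz r σ)
    {p : ι × Fin 3} (hp : p ∈ W)
    (hT : ∀ ω, Tc θ (uI r) (r p.1) p.2 (R p) ω = Tc θ (r p.1).I (r p.1) p.2 (R p) ω)
    (hown : ∀ v ∈ Bq (ctr (r p.1) p.2) (4 * R p), v ∈ uI r → v ∈ (r p.1).I)
    (hoth : ∀ q ∈ W, q ≠ p → Sp (r q.1) q.2 → ∀ v ∈ Bq (ctr (r p.1) p.2) (4 * R p),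
      v ∉ Bq (ctr (r q.1) q.2) (R q))
    {N : Cfg → ℕ} {s C : ℝ}
    (hN : ∀ ω ω' : Cfg, (∀ v ∈ Bq (ctr (r p.1) p.2) (4 * R p), ω v = ω' v) → N ω = N ω')
    (h : ∀ η : Cfg, Good η → (∀ v ∈ (r p.1).I, η v = (r p.1).fr v) →
      Ex (2 * Real.cos θ) (Bq (ctr (r p.1) p.2) (4 * R p) \ (r p.1).I) η
          (fun ω => Tc θ (r p.1).I (r p.1) p.2 (R p) ω * Real.exp (s * (N ω : ℝ))) ≤
        C * Ex (2 * Real.cos θ) (Bq (ctr (r p.1) p.2) (4 * R p) \ (r p.1).I) η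
          (Tc θ (r p.1).I (r p.1) p.2 (R p))) :
    EF P (uI r) σ (fun ω => PTW θ r W R ω * Real.exp (s * (N ω : ℝ))) ≤
      C * EF P (uI r) σ (PTW θ r W R) := by
  classical
  have hQ := cos_ge h0 h1
  set D1 := Bq (ctr (r p.1) p.2) (4 * R p) \ (r p.1).I with hD1
  set G : Cfg → ℝ := fun ω => ∏ q ∈ W.erase p, Tc θ (uI r) (r q.1) q.2 (R q) ω with hG
  have hPT : ∀ ω, PTW θ r W R ω = G ω * Tc θ (r p.1).I (r p.1) p.2 (R p) ω := by
    intro ω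
    unfold PTW
    rw [← Finset.prod_erase_mul _ _ hp, hT]
  have hDK : Disjoint D1 (uI r) := by
    rw [Finset.disjoint_left]
    intro v hv hv'
    obtain ⟨hv1, hv2⟩ := Finset.mem_sdiff.1 hv
    exact hv2 (hown v hv1 hv')
  have hGi : Ind D1 G := by
    refine ind_prod _ fun q hq => Tc_ind fun hq' v hv => ?_
    exact hoth q (Finset.mem_of_mem_erase hq) (Finset.ne_of_mem_erase hq) hq' v
      (Finset.mem_sdiff.1 hv).1
  have key := EF_lift hQ hP hg (K := uI r) (σ := σ) (D1 := D1) (G := G) (C := C)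
    (F1 := fun ω => Tc θ (r p.1).I (r p.1) p.2 (R p) ω * Real.exp (s * (N ω : ℝ)))
    (F2 := Tc θ (r p.1).I (r p.1) p.2 (R p)) hDK
    (fun ω => prod_nonneg fun _ _ => Tc_nonneg h0 h1 _ _ _ _ _) hGi
    (LF.prod _ fun _ _ => ⟨_, Tc_loc _ _ _ _⟩)
    (LF.mul ⟨_, Tc_loc _ _ _ _⟩ (LF.comp (N := N) hN fun n : ℕ => Real.exp (s * n)))
    ⟨_, Tc_loc _ _ _ _⟩ fun ζ hζ hk => h ζ hζ fun v hv => by
      rw [hk v (mem_uI.2 ⟨_, hv⟩)]
      exact hσ _ v hv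
  have e1 : (fun ω => PTW θ r W R ω * Real.exp (s * (N ω : ℝ))) = fun ω =>
      G ω * (Tc θ (r p.1).I (r p.1) p.2 (R p) ω * Real.exp (s * (N ω : ℝ))) := by
    funext ω
    rw [hPT, mul_assoc]
  have e2 : PTW θ r W R = fun ω => G ω * Tc θ (r p.1).I (r p.1) p.2 (R p) ω := funext hPT
  rw [e1, e2]
  exact key

/-- **Moments in a zone.** -/
theorem EF_zoneW (h0 : 0 < θ) (h1 : θ ≤ Real.pi / 3) (hR : RSW (2 * Real.cos θ)) {P : Measure Cfg}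
    (hP : IsLim (2 * Real.cos θ) P) (hg : ∀ᵐ ω ∂P, Good ω) (m : ℕ) : ∃ e1 : ℝ, 0 < e1 ∧
    ∀ κ Rz s : ℝ, 0 < κ → 0 ≤ Rz →
    ∃ C ρ0 : ℝ, 0 < C ∧ 0 < ρ0 ∧ ∀ ρ : ℝ, ρ0 ≤ ρ → ∀ (c : ℤ × ℤ) (A : Finset (ℤ × ℤ)),
      (∀ v ∈ A, (nm (v - c) : ℝ) ≤ Rz * ρ) → ∀ (x : Fin m → ℤ × ℤ), ∃ N : Cfg → ℕ,
      (∃ U : Finset (ℤ × ℤ), ∀ ω ω' : Cfg, (∀ v ∈ U, ω v = ω' v) → N ω = N ω') ∧
      (∀ ω, MajA A (κ * ρ) ω (N ω)) ∧
      ∀ {ι : Type} [Fintype ι] (r : ι → Row) (W : Finset (ι × Fin 3)) (R : ι × Fin 3 → ℤ)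
        (σ : Cfg), Frz r σ →
        (∀ (D : Finset (ℤ × ℤ)) (η : Cfg), Good η → (∀ v ∈ uI r, η v = σ v) →
          (∀ v, Nr A (κ * ρ) v → v ∉ uI r → v ∈ D) → (∀ v ∈ uI r, v ∉ D) →
          ∀ (y : ℤ × ℤ) (a : ℤ), 1 ≤ a → (a : ℝ) ≤ κ * ρ / 4 →
          (∀ v ∈ bxx y a, Nr A (κ * ρ) v ∧ ∀ i, e1 * κ / (1 + |s|) * ρ < (nm (v - x i) : ℝ)) →
          OneC y a D η) →
        (∀ q ∈ W, Sp (r q.1) q.2 → ∀ v ∈ Bq (ctr (r q.1) q.2) (R q),
          ¬ (Nr A (κ * ρ) v ∧ ∀ i, e1 * κ / (1 + |s|) * ρ < (nm (v - x i) : ℝ))) →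
        EF P (uI r) σ (fun ω => PTW θ r W R ω * Real.exp (s * (N ω : ℝ))) ≤
          C * EF P (uI r) σ (PTW θ r W R) := by
  classical
  have hQ := cos_ge h0 h1
  obtain ⟨e1, he1, key⟩ := H398.Q.macro_F hQ hR m
  refine ⟨e1, he1, fun κ Rz s hκ hRz => ?_⟩
  obtain ⟨C, ρ0, hC, hρ0, key⟩ := key κ Rz s hκ hRz
  refine ⟨C, ρ0, hC, hρ0, fun ρ hρ c A hA x => ?_⟩
  have hρp : 0 < ρ := lt_of_lt_of_le hρ0 hρ
  obtain ⟨N, hN1, hN2, hN3⟩ := key ρ hρ c A hA x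
  -- the zone
  obtain ⟨U, hU⟩ := exists_cball c ((Rz + κ) * ρ)
  have hnear : ∀ v, Nr A (κ * ρ) v → v ∈ U := by
    rintro v ⟨u, hu, hv⟩
    rw [hU]
    have h2 := hA u hu
    have h3 : (nm (v - c) : ℝ) ≤ nm (v - u) + nm (u - c) := by exact_mod_cast nm_sub_le v u c
    nlinarith
  have hNl : ∀ ω ω' : Cfg, (∀ v ∈ U, ω v = ω' v) → N ω = N ω' := fun ω ω' hw =>
    hN1 ω ω' fun v hv _ => hw v (hnear v hv)
  refine ⟨N, ⟨U, hNl⟩, hN2, fun {ι} _ r W R σ hσ hone hbox => ?_⟩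
  obtain ⟨R₀, -, hR₀⟩ := H519.exists_Bq U
  have := EF_tr hQ hP hg (uI r) σ
    ((PTW_LF θ r W R).mul (LF.comp (N := N) hNl fun n : ℕ => Real.exp (s * n)))
    (PTW_LF θ r W R) (a := 1) (b := C) R₀ fun D η hD _ hη hk => by
      rw [one_mul]
      refine hN3 (D \ uI r) η hη (hone (D \ uI r) η hη hk (fun v hv hv' =>
        Finset.mem_sdiff.2 ⟨hD (hR₀ (hnear v hv)), hv'⟩) fun v hv hv' =>
          (Finset.mem_sdiff.1 hv').2 hv) _ (fun ω => PTW_nonneg h0 h1 r W R ω) ?_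
      intro ω ω' hw
      refine prod_congr rfl fun q hq => Tc_off fun hp v hv => hw v fun hv' => ?_
      exact hbox q hq hp v hv ⟨hv'.2.1, hv'.2.2⟩
  rwa [one_mul] at this

/-- **Moments of the masses of the small loops of the flow.** -/
theorem EF_flowW (h0 : 0 < θ) (h1 : θ ≤ Real.pi / 3) (hR : RSW (2 * Real.cos θ)) {P : Measure Cfg}
    (hP : IsLim (2 * Real.cos θ) P) (hg : ∀ᵐ ω ∂P, Good ω) {κ' Rf B : ℝ} (s : ℝ)
    (hκ' : 0 < κ') (hs : 0 ≤ s) :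
    ∃ C n₀ : ℝ, 0 < C ∧ 0 < n₀ ∧ ∀ n : ℕ, n₀ ≤ n → ∀ {ι : Type} [Fintype ι] {r : ι → Row}
      {W : Finset (ι × Fin 3)} {R : ι × Fin 3 → ℤ} {c : Ed → ℝ}, (Function.support c).Finite →
      (∀ z, |dv c z| ≤ B / (n : ℝ) ^ 2) →
      (∀ z, dv c z ≠ 0 → (nm z : ℝ) ≤ Rf * n ∧ (∀ u ∈ uI r, 33 * (κ' * n) < (nm (z - u) : ℝ)) ∧
        ∀ q ∈ W, Sp (r q.1) q.2 → ∀ u ∈ Bq (ctr (r q.1) q.2) (R q),
          33 * (κ' * n) < (nm (z - u) : ℝ)) →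
      ∀ (σ : Cfg), ∀ t : ℝ, 0 ≤ t → t ≤ s →
      LF (fun ω => Real.exp (-(t * (Real.tan θ * Sm (dv c) (κ' * n) ω)))) ∧
      EF P (uI r) σ (fun ω => PTW θ r W R ω *
          Real.exp (-(t * (Real.tan θ * Sm (dv c) (κ' * n) ω)))) ≤
        C * EF P (uI r) σ (PTW θ r W R) := by
  classical
  have hQ := cos_ge h0 h1
  obtain ⟨ht0, ht2⟩ := tan_le h0 h1
  obtain ⟨ε, C, ρ0, hε, hC, hρ0, key⟩ := YQ_mom hQ hR hP κ' (|Rf| + 1) (|B| + 1) s 1 0 hκ'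
    (by positivity) (by positivity) hs le_rfl
  refine ⟨C, max ρ0 1, hC, by positivity,
    fun n hn ι _ r W R c hc hdle hz σ t ht hts => ?_⟩
  have hn0 : ρ0 ≤ (n : ℝ) := (le_max_left _ _).trans hn
  have hn1 : (1 : ℝ) ≤ n := (le_max_right _ _).trans hn
  have hκ'n : 0 < κ' * n := by positivity
  obtain ⟨N, -, -, hN3⟩ := key n hn0 0 ∅ (fun v hv => absurd hv (Finset.notMem_empty v)) Fin.elim0
  have hfs : ∀ z, dv c z ≠ 0 → (nm (z - (0 : ℤ × ℤ)) : ℝ) ≤ (|Rf| + 1) * n := fun z h => by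
    rw [sub_zero]
    have h5 : Rf * n ≤ |Rf| * n := mul_le_mul_of_nonneg_right (le_abs_self Rf) (by linarith)
    have := (hz z h).1
    nlinarith
  have hfb : ∀ z, |dv c z| ≤ (|B| + 1) / (n : ℝ) ^ 2 := fun z => by
    refine (hdle z).trans (div_le_div_of_nonneg_right ?_ (by positivity))
    linarith [le_abs_self B]
  obtain ⟨F, hF⟩ := exists_cball 0 ((|Rf| + 1) * n)
  have hF' : ∀ z, dv c z ≠ 0 → z ∈ F := fun z h => (hF z).2 (hfs z h)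
  obtain ⟨A0, hA0⟩ := Sm_Loc hF' (κ' * n)
  have hLF : LF (fun ω => Real.exp (-(t * (Real.tan θ * Sm (dv c) (κ' * n) ω)))) :=
    ⟨A0, fun ω ω' hw => by
      show Real.exp (-(t * (Real.tan θ * Sm (dv c) (κ' * n) ω))) =
        Real.exp (-(t * (Real.tan θ * Sm (dv c) (κ' * n) ω')))
      rw [hA0 ω ω' hw]⟩
  refine ⟨hLF, ?_⟩
  -- the range of the flow
  obtain ⟨R₁, hR₁⟩ : ∃ R₁ : ℤ, ((|Rf| + 1) * n + 33 * (κ' * n)) < R₁ := exists_int_gt _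
  have := EF_tr hQ hP hg (uI r) σ ((PTW_LF θ r W R).mul hLF) (PTW_LF θ r W R) (a := 1) (b := C) R₁
    fun D η hD _ hη hk => by
      rw [one_mul]
      have h2 := hN3 (D \ uI r) η hη (fun y a ha hz => by
          obtain ⟨u, hu, -⟩ := hz y (mem_bxx.2 (by
            rw [sub_self]
            have : nm (0 : ℤ × ℤ) = 0 := by simp [nm]
            omega))
          exact absurd hu (Finset.notMem_empty u)) (dv c) hfb hfs (fun z hz' v hv => by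
          have hv' : (nm (v - z) : ℝ) ≤ 33 * (κ' * n) := by linarith
          refine Finset.mem_sdiff.2 ⟨hD (Bq_of_nm ?_), fun hvu => ?_⟩
          · have h4 : (nm (v - 0) : ℝ) ≤ nm (v - z) + nm (z - 0) := by
              exact_mod_cast nm_sub_le v z 0
            have h5 := hfs z hz'
            have h6 : (nm (v - 0) : ℝ) < R₁ := by linarith
            exact_mod_cast h6
          · have h4 := (hz z hz').2.1 v hvu
            rw [nm_comm] at h4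
            linarith) (PTW θ r W R) (fun ω => PTW_nonneg h0 h1 r W R ω) (fun ω ω' hw => by
          refine prod_congr rfl fun p hpW => Tc_off fun hp v hv => hw v fun hv' => ?_
          rcases hv'.2 with ⟨u, hu, -⟩ | ⟨z, hz', hvz⟩
          · exact absurd hu (Finset.notMem_empty u)
          · have h2 := (hz z hz').2.2 p hpW hp v hv
            rw [nm_comm] at h2
            linarith) (Real.tan θ) t ht0 ht2 ht hts
      rw [fsum_dv hc, mul_zero, zero_mul, neg_zero, Real.exp_zero, mul_one] at h2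
      refine le_trans (le_of_eq ?_) h2
      refine Ex_congr fun S _ => ?_
      congr 1
      unfold YQ
      rw [one_pow, one_mul, ← Real.exp_mul]
      congr 1
      ring
  rwa [one_mul] at this

end Vale.Agent.P167.H945.S
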